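import Vale.Agent.P095H.Work

/-! The fixed point algebra has no character. -/

namespace Vale.Agent.P095H

open Finset

variable {F R Z : Type} [CStarAlgebra F] [CStarAlgebra R] [CStarAlgebra Z] {G : Type}

namespace K

/-- Left multiplication on the quotient by a left ideal. -/
noncomputable def lm (I : Ideal F) (z : F) :
    (F ⧸ I.restrictScalars ℂ) →ₗ[ℂ] (F ⧸ I.restrictScalars ℂ) :=
  (I.restrictScalars ℂ).mapQ (I.restrictScalars ℂ) (LinearMap.mulLeft ℂ z)
    fun _ hy => I.mul_mem_left z hy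

lemma lm_mk (I : Ideal F) (z y : F) :
    lm I z (Submodule.Quotient.mk y) = Submodule.Quotient.mk (z * y) := rfl

lemma zero_of [IsSimpleRing Z] (hinf : ¬ FiniteDimensional ℂ Z) (I : Ideal F) (γ : Z →⋆ₐ[ℂ] F)
    (W : Submodule ℂ (F ⧸ I.restrictScalars ℂ)) [FiniteDimensional ℂ W]
    (h : ∀ d, ∀ w ∈ W, lm I (γ d) w ∈ W) : W = ⊥ := by
  by_contra hW
  have : Nontrivial W := Submodule.nontrivial_iff_ne_bot.2 hW
  have ex : ∀ {a b : Module.End ℂ W} (_ : ∀ (y : F) (hy : Submodule.Quotient.mk y ∈ W),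
      (a ⟨_, hy⟩ : F ⧸ I.restrictScalars ℂ) = b ⟨_, hy⟩), a = b := fun {a b} H => by
    refine LinearMap.ext fun w => Subtype.ext ?_
    obtain ⟨w, hw⟩ := w
    obtain ⟨y, rfl⟩ := Submodule.Quotient.mk_surjective _ w
    exact H y hw
  let ψ : Z →ₐ[ℂ] Module.End ℂ W :=
    { toFun := fun d => (lm I (γ d)).restrict (h d)
      map_one' := ex fun y hy => by
        show lm I (γ 1) (Submodule.Quotient.mk y) = Submodule.Quotient.mk y
        rw [lm_mk, map_one, one_mul]
      map_mul' := fun a b => ex fun y hy => by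
        show lm I (γ (a * b)) (Submodule.Quotient.mk y) =
          lm I (γ a) (lm I (γ b) (Submodule.Quotient.mk y))
        rw [lm_mk, lm_mk, lm_mk, map_mul, mul_assoc]
      map_zero' := ex fun y hy => by
        show lm I (γ 0) (Submodule.Quotient.mk y) = 0
        rw [lm_mk, map_zero, zero_mul]; rfl
      map_add' := fun a b => ex fun y hy => by
        show lm I (γ (a + b)) (Submodule.Quotient.mk y) =
          lm I (γ a) (Submodule.Quotient.mk y) + lm I (γ b) (Submodule.Quotient.mk y)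
        rw [lm_mk, lm_mk, lm_mk, map_add, add_mul]; rfl
      commutes' := fun c => ex fun y hy => by
        show lm I (γ (algebraMap ℂ Z c)) (Submodule.Quotient.mk y) =
          c • Submodule.Quotient.mk y
        rw [lm_mk, AlgHomClass.commutes, ← Algebra.smul_def]; rfl }
  exact hinf (Module.Finite.of_injective ψ.toLinearMap (RingHom.injective ψ.toRingHom))

variable [Fintype G]

/-- The operator `∑ x g U g`. -/
noncomputable def op (I : Ideal F) (σ : G → F →⋆ₐ[ℂ] F) (hI : ∀ g, ∀ y ∈ I, σ g y ∈ I) (x : G → F) :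
    (F ⧸ I.restrictScalars ℂ) →ₗ[ℂ] (F ⧸ I.restrictScalars ℂ) :=
  (I.restrictScalars ℂ).mapQ (I.restrictScalars ℂ)
    (∑ g, LinearMap.mulLeft ℂ (x g) ∘ₗ (σ g).toAlgHom.toLinearMap) fun y hy => by
      show (∑ g, LinearMap.mulLeft ℂ (x g) ∘ₗ (σ g).toAlgHom.toLinearMap) y ∈ I
      rw [LinearMap.sum_apply]
      exact I.sum_mem fun g _ => I.mul_mem_left _ (hI g y hy)

lemma op_mk (I : Ideal F) (σ : G → F →⋆ₐ[ℂ] F) (hI : ∀ g, ∀ y ∈ I, σ g y ∈ I) (x : G → F) (y : F) :
    op I σ hI x (Submodule.Quotient.mk y) = Submodule.Quotient.mk (∑ g, x g * σ g y) := by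
  rw [op, Submodule.mapQ_apply, LinearMap.sum_apply]
  rfl

lemma op_zero [Group G] [IsSimpleRing Z] (hinf : ¬ FiniteDimensional ℂ Z) (I : Ideal F)
    {σ : G → F →⋆ₐ[ℂ] F} (hσ : Act σ) (hI : ∀ g, ∀ y ∈ I, σ g y ∈ I)
    (hγ : ∀ x : F, ∃ γ : Z →⋆ₐ[ℂ] F, ∀ d, Commute (γ d) x) (S : Finset G) :
    ∀ x : G → F, (∀ g ∉ S, x g = 0) → FiniteDimensional ℂ (LinearMap.range (op I σ hI x)) →
      op I σ hI x = 0 := by
  classical
  induction S using Finset.induction_on with
  | empty =>
    intro x hx _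
    refine LinearMap.ext fun v => ?_
    obtain ⟨y, rfl⟩ := Submodule.Quotient.mk_surjective _ v
    rw [op_mk, sum_eq_zero fun g _ => by rw [hx g (notMem_empty g), zero_mul]]
    rfl
  | insert k S _ ih =>
    intro x hx hfin
    obtain ⟨γ, hγ⟩ := hγ (x k)
    rw [← LinearMap.range_eq_bot]
    refine zero_of hinf I γ _ fun d => ?_
    have e : op I σ hI (fun g => γ d * x g - x g * σ g (σ k⁻¹ (γ d))) =
        lm I (γ d) ∘ₗ op I σ hI x - op I σ hI x ∘ₗ lm I (σ k⁻¹ (γ d)) := by
      refine LinearMap.ext fun v => ?_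
      obtain ⟨y, rfl⟩ := Submodule.Quotient.mk_surjective _ v
      rw [LinearMap.sub_apply, LinearMap.comp_apply, LinearMap.comp_apply, op_mk, op_mk, lm_mk,
        lm_mk, op_mk, ← Submodule.Quotient.mk_sub, mul_sum, ← sum_sub_distrib]
      refine congrArg _ (sum_congr rfl fun g _ => ?_)
      rw [map_mul, sub_mul, mul_assoc, mul_assoc]
    have h0 := ih (fun g => γ d * x g - x g * σ g (σ k⁻¹ (γ d))) (fun g hg => by
      by_cases c : g = k
      · rw [c, ← hσ.mul, mul_inv_cancel, hσ.one, (hγ d).eq, sub_self]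
      · rw [hx g (by simp [c, hg]), mul_zero, zero_mul, sub_self]) (by
      refine Submodule.finiteDimensional_of_le (S₂ := (LinearMap.range (op I σ hI x)).map
        (lm I (γ d)) ⊔ LinearMap.range (op I σ hI x)) ?_
      rintro _ ⟨v, rfl⟩
      rw [e]
      exact sub_mem (Submodule.mem_sup_left ⟨_, ⟨v, rfl⟩, rfl⟩) (Submodule.mem_sup_right ⟨_, rfl⟩))
    rw [e, sub_eq_zero] at h0
    rintro _ ⟨v, rfl⟩
    exact ⟨_, (LinearMap.congr_fun h0 v).symm⟩

end K

theorem nochar_fix [Group G] [Fintype G] [IsSimpleRing Z] (hinf : ¬ FiniteDimensional ℂ Z)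
    {σ : G → F →⋆ₐ[ℂ] F} (hσ : Act σ) (hγ : ∀ x : F, ∃ γ : Z →⋆ₐ[ℂ] F, ∀ d, Commute (γ d) x)
    (e : R →⋆ₐ[ℂ] F) (hinj : Function.Injective e) (he : ∀ g r, σ g (e r) = e r)
    (hs : ∀ x, (∀ g, σ g x = x) → ∃ r, e r = x) : IsEmpty (R →⋆ₐ[ℂ] ℂ) := by
  refine ⟨fun χ => ?_⟩
  have h1 : ∀ y, ∃ r, e r = ∑ g, σ g y := fun y => hs _ fun k => by
    rw [map_sum]
    simp only [← hσ.mul]
    exact Fintype.sum_equiv (Equiv.mulLeft k) _ _ fun g => rfl
  choose av hav using h1
  let I : Ideal F := Ideal.span (e '' {r | χ r = 0})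
  have hI : ∀ g, ∀ y ∈ I, σ g y ∈ I := fun g y hy => by
    induction hy using Submodule.span_induction with
    | mem y hy =>
      obtain ⟨r, hr, rfl⟩ := hy
      rw [he]
      exact Ideal.subset_span ⟨r, hr, rfl⟩
    | zero => rw [map_zero]; exact I.zero_mem
    | add a b _ _ ha hb => rw [map_add]; exact I.add_mem ha hb
    | smul a b _ hb => rw [smul_eq_mul, map_mul]; exact I.mul_mem_left _ hb
  have h2 : ∀ y ∈ I, ∀ x, χ (av (x * y)) = 0 := fun y hy => by
    induction hy using Submodule.span_induction with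
    | mem y hy =>
      obtain ⟨r, hr, rfl⟩ := hy
      intro x
      have : av (x * e r) = av x * r := hinj (by
        rw [map_mul, hav, hav, sum_mul]
        exact sum_congr rfl fun g _ => by rw [map_mul, he])
      rw [this, map_mul, show χ r = 0 from hr, mul_zero]
    | zero =>
      intro x
      have : av (x * 0) = 0 := hinj (by rw [hav]; simp)
      rw [this, map_zero]
    | add a b _ _ ha hb =>
      intro x
      have : av (x * (a + b)) = av (x * a) + av (x * b) := hinj (by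
        rw [map_add, hav, hav, hav, ← sum_add_distrib]
        exact sum_congr rfl fun g _ => by rw [mul_add, map_add])
      rw [this, map_add, ha, hb, add_zero]
    | smul a b _ hb =>
      intro x
      rw [smul_eq_mul, ← mul_assoc]
      exact hb _
  have h3 := K.op_zero hinf I hσ hI hγ univ (fun _ => 1) (fun g hg => absurd (mem_univ g) hg) (by
    refine Submodule.finiteDimensional_of_le
      (S₂ := Submodule.span ℂ {Submodule.Quotient.mk (1 : F)}) ?_
    rintro _ ⟨v, rfl⟩
    obtain ⟨y, rfl⟩ := Submodule.Quotient.mk_surjective _ v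
    rw [K.op_mk, Submodule.mem_span_singleton]
    refine ⟨χ (av y), ?_⟩
    rw [← Submodule.Quotient.mk_smul, eq_comm, Submodule.Quotient.eq]
    simp only [one_mul]
    refine Ideal.subset_span ⟨av y - algebraMap ℂ R (χ (av y)), ?_, ?_⟩
    · show χ _ = 0
      rw [map_sub, AlgHomClass.commutes]
      exact sub_self _
    · rw [map_sub, hav, AlgHomClass.commutes, Algebra.algebraMap_eq_smul_one])
  have h4 := LinearMap.congr_fun h3 (Submodule.Quotient.mk 1)
  rw [K.op_mk, LinearMap.zero_apply, Submodule.Quotient.mk_eq_zero] at h4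
  have h5 := h2 _ h4 1
  have h6 : av (1 * ∑ g : G, 1 * σ g 1) = (Fintype.card G * Fintype.card G : ℕ) := hinj (by
    rw [hav]; simp)
  rw [h6, map_natCast, Nat.cast_eq_zero] at h5
  exact (Nat.mul_pos Fintype.card_pos Fintype.card_pos).ne' h5

end Vale.Agent.P095H
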