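import Vale.Agent.P095H.Work

/-! Copies of `Z` in the central sequence algebra; commuting copies of invariant algebras. -/

namespace Vale.Agent.P095H

open Filter Topology Finset TopologicalSpace Vale.Agent.P101 Vale.Agent.P101.U2

variable {A E T Z : Type} [CStarAlgebra A] [CStarAlgebra E] [CStarAlgebra T] [CStarAlgebra Z]
  {G : Type}

theorem delta {ω : Ultrafilter ℕ} (hω : (ω : Filter ℕ) ≤ cofinite) [Nontrivial A]
    {q : Linf A →⋆ₐ[ℂ] E} (hq : IsUlt ω q) [SeparableSpace Z] (hZ : CentralCopies Z)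
    (ι : A →⋆ₐ[ℂ] T) (j : Z →⋆ₐ[ℂ] T) (hc : ∀ a d, Commute (ι a) (j d))
    (hd : Dense (StarAlgebra.adjoin ℂ (Set.range ι ∪ Set.range j) : Set T)) (e : A ≃⋆ₐ[ℂ] T) :
    ∃ Δ : Z →⋆ₐ[ℂ] Linf A, (∀ d, q (Δ d) ∈ Cen q (id : A → A)) ∧
      ∀ d n, ∃ d', Δ d n = e.symm (j d') := by
  classical
  obtain ⟨s, hs⟩ := exists_dense_seq Z
  choose γ hγ using fun n : ℕ => hZ ((range (n + 1)).image s) (1 / ((n : ℝ) + 1))
    Nat.one_div_pos_of_nat
  let k : Z →⋆ₐ[ℂ] A := (e.symm : T →⋆ₐ[ℂ] A).comp j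
  let δ : ℕ → Z →⋆ₐ[ℂ] A := fun n => k.comp (γ n)
  let Δ : Z →⋆ₐ[ℂ] Linf A :=
    { toFun := fun d => U1.bd (fun n => δ n d) ‖d‖ fun n => NonUnitalStarAlgHom.norm_apply_le _ d
      map_one' := lp.ext (funext fun n => map_one (δ n))
      map_mul' := fun x y => lp.ext (funext fun n => map_mul (δ n) x y)
      map_zero' := lp.ext (funext fun n => map_zero (δ n))
      map_add' := fun x y => lp.ext (funext fun n => map_add (δ n) x y)
      commutes' := fun c => lp.ext (funext fun n => AlgHomClass.commutes (δ n) c)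
      map_star' := fun x => lp.ext (funext fun n => map_star (δ n) x) }
  let c : T →⋆ₐ[ℂ] E := q.comp ((cstHom A).comp (e.symm : T →⋆ₐ[ℂ] A))
  have h1 : ∀ d d', Commute (q (Δ d)) (c (j d')) := fun d d' => by
    refine hs.induction_on₂ (p := fun d d' => Commute (q (Δ d)) (c (j d')))
      (isClosed_commute ((hom_cont (q.comp Δ)).comp continuous_fst)
        ((hom_cont (c.comp j)).comp continuous_snd)) (fun a b => ?_) d d'
    show q (Δ (s a)) * q (cst A (k (s b))) = q (cst A (k (s b))) * q (Δ (s a))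
    rw [← map_mul, ← map_mul, U1.eq_iff hq]
    have t : Tendsto (fun n : ℕ => 1 / ((n : ℝ) + 1)) ω (𝓝 0) :=
      tendsto_one_div_add_atTop_nhds_zero_nat.mono_left (Nat.cofinite_eq_atTop ▸ hω)
    refine squeeze_zero' (Eventually.of_forall fun _ => norm_nonneg _) ?_ t
    have h2 : ∀ᶠ n in (ω : Filter ℕ), max a b ≤ n :=
      hω (by rw [Nat.cofinite_eq_atTop]; exact eventually_ge_atTop _)
    filter_upwards [h2] with n hn
    show ‖k (γ n (s a)) * k (s b) - k (s b) * k (γ n (s a))‖ ≤ _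
    rw [← map_mul, ← map_mul, ← map_sub]
    exact (NonUnitalStarAlgHom.norm_apply_le k _).trans (hγ n _
      (mem_image_of_mem _ (mem_range.2 (by omega))) _
      (mem_image_of_mem _ (mem_range.2 (by omega)))).le
  have h2 : ∀ d a, Commute (q (Δ d)) (c (ι a)) := fun d a => by
    refine Commute.map (?_ : Commute (Δ d) (cst A (e.symm (ι a)))) q
    exact lp.ext (funext fun n => ((hc a (γ n d)).symm.map (e.symm : T →⋆ₐ[ℂ] A)).eq)
  have h3 : ∀ t ∈ StarAlgebra.adjoin ℂ (Set.range ι ∪ Set.range j), ∀ d,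
      Commute (q (Δ d)) (c t) := fun t ht => by
    induction ht using StarAlgebra.adjoin_induction with
    | mem x hx =>
      rcases hx with ⟨a, rfl⟩ | ⟨d', rfl⟩
      · exact fun d => h2 d a
      · exact fun d => h1 d d'
    | algebraMap r =>
      intro d
      rw [AlgHomClass.commutes]
      exact (Algebra.commutes r _).symm
    | add x y _ _ hx hy => exact fun d => by rw [map_add]; exact (hx d).add_right (hy d)
    | mul x y _ _ hx hy => exact fun d => by rw [map_mul]; exact (hx d).mul_right (hy d)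
    | star x _ hx =>
      intro d
      have := (hx (star d)).star_star
      rwa [map_star, map_star, star_star, ← map_star] at this
  refine ⟨Δ, fun d => mem_cen.2 fun a => ?_, fun d n => ⟨γ n d, rfl⟩⟩
  have := hd.induction (P := fun t => Commute (q (Δ d)) (c t)) (fun t ht => h3 t ht d)
    (isClosed_commute continuous_const (hom_cont c)) (e a)
  have e1 : c (e a) = q (cst A a) := congrArg (fun x => q (cst A x)) (e.symm_apply_apply a)
  rwa [e1] at this

theorem zcopy {ω : Ultrafilter ℕ} (hω : (ω : Filter ℕ) ≤ cofinite) [Nontrivial A]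
    [SeparableSpace A] {q : Linf A →⋆ₐ[ℂ] E} (hq : IsUlt ω q) [SeparableSpace Z]
    (Δ : Z →⋆ₐ[ℂ] Linf A) (hΔ : ∀ d, q (Δ d) ∈ Cen q (id : A → A)) (x : Cen q (id : A → A)) :
    ∃ γ : Z →⋆ₐ[ℂ] Cen q (id : A → A), ∀ d, Commute (γ d) x := by
  obtain ⟨a, ha, ha'⟩ := exists_countable_dense A
  obtain ⟨y, hy⟩ := hq.surj x
  obtain ⟨m, hm⟩ := reindex hω hq (isSeparable_range (hom_cont Δ))
    (by rintro _ ⟨d, rfl⟩; exact hΔ d) ((ha.image (cst A)).insert y)
  have hR : ∀ d, q (rx m (Δ d)) ∈ Cen q (id : A → A) := fun d => mem_cen.2 fun b =>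
    ha'.induction (P := fun b => Commute (q (rx m (Δ d))) (q (cst A b)))
      (fun b hb => (hm _ ⟨d, rfl⟩).2 _ (Or.inr ⟨b, hb, rfl⟩))
      (isClosed_commute continuous_const ((hom_cont q).comp continuous_cst)) b
  refine ⟨(q.comp ((rx m).comp Δ)).codRestrict _ hR, fun d => Subtype.ext ?_⟩
  have := (hm _ ⟨d, rfl⟩).2 _ (Or.inl rfl)
  rw [hy] at this
  exact this.eq

/-- Invariant elements have invariant lifts. -/
theorem inv_lift [Group G] [Fintype G] [Nontrivial A] {q : Linf A →⋆ₐ[ℂ] E}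
    (hq : Function.Surjective q) {α : G → A →⋆ₐ[ℂ] A} (hα : Act α) {σ : G → E →⋆ₐ[ℂ] E}
    (hσ : ∀ g x, σ g (q x) = q (Z2.mapL (α g) x)) {z : E} (hz : z ∈ Fix σ) :
    ∃ x, q x = z ∧ ∀ g, Z2.mapL (α g) x = x := by
  obtain ⟨y, rfl⟩ := hq z
  refine ⟨(Fintype.card G : ℂ)⁻¹ • ∑ g, Z2.mapL (α g) y, ?_, fun k => ?_⟩
  · rw [map_smul, map_sum, sum_congr rfl fun g _ => (hσ g y).symm.trans (hz g), sum_const,
      ← Nat.cast_smul_eq_nsmul ℂ, card_univ, inv_smul_smul₀ (Nat.cast_ne_zero.2 Fintype.card_ne_zero)]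
  · rw [map_smul, map_sum]
    refine congrArg _ (Fintype.sum_equiv (Equiv.mulLeft k) _ _ fun g => ?_)
    exact lp.ext (funext fun n => (hα.mul k g (y n)).symm)

theorem cp_fix {ω : Ultrafilter ℕ} (hω : (ω : Filter ℕ) ≤ cofinite) [Group G] [Fintype G]
    [Nontrivial A] [SeparableSpace A] {q : Linf A →⋆ₐ[ℂ] E} (hq : IsUlt ω q)
    {α : G → A →⋆ₐ[ℂ] A} (hα : Act α) {σ : G → E →⋆ₐ[ℂ] E}
    (hσ : ∀ g x, σ g (q x) = q (Z2.mapL (α g) x)) : Cp (CF q (id : A → A) σ) := by
  intro T hT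
  choose lift hlift hinv using fun t : CF q (id : A → A) σ => inv_lift hq.surj hα hσ t.2.2
  set H : StarSubalgebra ℂ (Linf A) := StarAlgebra.adjoin ℂ (lift '' T) with hH
  have hGs : IsSeparable (H : Set (Linf A)) := sep_adjoin (hT.image _)
  have hc : ∀ x ∈ H, q x ∈ CF q (id : A → A) σ := by
    have : H ≤ (CF q (id : A → A) σ).comap q := StarAlgebra.adjoin_le (by
      rintro _ ⟨t, -, rfl⟩
      change q (lift t) ∈ CF q (id : A → A) σ
      rw [hlift]
      exact t.2)
    exact fun x hx => this hx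
  have hi : H ≤ Fix fun g => Z2.mapL (α g) := StarAlgebra.adjoin_le (by
    rintro _ ⟨t, -, rfl⟩
    exact hinv t)
  let π0 : H →⋆ₐ[ℂ] CF q (id : A → A) σ :=
    (q.comp H.subtype).codRestrict _ fun x => hc x.1 x.2
  let D : StarSubalgebra ℂ (CF q (id : A → A) σ) := π0.range.topologicalClosure
  have hD : IsClosed (D : Set (CF q (id : A → A) σ)) :=
    StarSubalgebra.isClosed_topologicalClosure _
  let π : H →⋆ₐ[ℂ] D := π0.codRestrict _ fun x =>
    StarSubalgebra.le_topologicalClosure _ ⟨x, rfl⟩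
  have hπ : DenseRange π := by
    rw [DenseRange, Subtype.dense_iff]
    intro z hz
    refine closure_mono ?_ hz
    rintro _ ⟨x, rfl⟩
    exact ⟨π x, ⟨x, rfl⟩, rfl⟩
  have := hGs.separableSpace
  have hπc : Continuous π :=
    (((hom_cont q).comp continuous_subtype_val).subtype_mk _).subtype_mk _
  have : SeparableSpace D := hπ.separableSpace hπc
  refine ⟨D, inferInstance, D.subtype, Subtype.val_injective, fun t ht => ?_, copies fun S hS => ?_⟩
  · exact ⟨π ⟨lift t, StarAlgebra.subset_adjoin _ _ ⟨t, ht, rfl⟩⟩, Subtype.ext (hlift _)⟩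
  obtain ⟨S0, hS0S, hS0, hSS0⟩ := hS.exists_countable_dense_subset
  obtain ⟨a, ha, ha'⟩ := exists_countable_dense A
  obtain ⟨m, hm⟩ := reindex hω hq hGs (fun x hx => (hc x hx).1)
    ((hS0.image lift).union (ha.image (cst A)))
  have hR : ∀ x : H, q (rx m x.1) ∈ CF q (id : A → A) σ := fun x => ⟨mem_cen.2 fun b =>
    ha'.induction (P := fun b => Commute (q (rx m x.1)) (q (cst A b)))
      (fun b hb => (hm x.1 x.2).2 _ (Or.inr ⟨b, hb, rfl⟩))
      (isClosed_commute continuous_const ((hom_cont q).comp continuous_cst)) b, fun g => by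
    rw [hσ]
    exact congrArg (fun y => q (rx m y)) (hi x.2 g)⟩
  obtain ⟨ρ, hρ⟩ := extend_hom π hπ
    ((q.comp ((rx m).comp H.subtype)).codRestrict (CF q (id : A → A) σ) hR) fun x => (hm x.1 x.2).1
  refine ⟨ρ, fun d s hs => ?_⟩
  refine hπ.induction_on (p := fun d => Commute (ρ d) s) d
    (isClosed_commute (hom_cont ρ) continuous_const) fun x => ?_
  refine (isClosed_commute (f := fun _ => ρ (π x)) (g := id) continuous_const
    continuous_id).closure_subset_iff.2 (fun s hs => ?_) (hSS0 hs)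
  have := (hm x.1 x.2).2 _ (Or.inl ⟨s, hs, rfl⟩)
  rw [hlift] at this
  change Commute (ρ (π x)) s
  rw [hρ]
  exact Subtype.ext this.eq

end Vale.Agent.P095H
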