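import Vale.Agent.P095H.DefsC
import Vale.Agent.P095.NOR
import Vale.Agent.P095.NCP
import Vale.Agent.P095.PartFN
import Vale.Agent.P095.PartAP
import Vale.Agent.P095.PartCP
import Vale.Agent.P095.PartIG
import Vale.Agent.P101.Glue

/-! The equivariant character criterion. -/

namespace Vale.Agent.P095H

open Filter Topology Finset TopologicalSpace Vale.Agent.P101 Vale.Agent.P101.U2

variable {A E T Z : Type} [CStarAlgebra A] [CStarAlgebra E] [CStarAlgebra T] [CStarAlgebra Z]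
  {G K : Type} {ω : Ultrafilter ℕ}

theorem char_fix [Group G] [Nontrivial A] {q : Linf A →⋆ₐ[ℂ] E} (hq : IsUlt ω q) (α : G →* Aut A)
    {σ : G → E →⋆ₐ[ℂ] E} (hσ : P095.Ind q (fun g => (α g : A →⋆ₐ[ℂ] A)) σ) (N : Subgroup G)
    (h : IsEmpty (FixCentral ω α N →⋆ₐ[ℂ] ℂ)) :
    IsEmpty (P095.Fix q (id : A → A) (fun n : N => σ n) →⋆ₐ[ℂ] ℂ) := by
  let ψ0 : (Linf A ⧸ nullIdeal ω A) →ₐ[ℂ] E :=
    Ideal.Quotient.liftₐ (nullIdeal ω A) q.toAlgHom fun x hx => (U1.zero_iff hq x).2 hx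
  let ψ : Ult ω A →⋆ₐ[ℂ] E :=
    { (ψ0 : Ult ω A →ₐ[ℂ] E) with
      map_star' := by
        rintro ⟨x⟩
        exact map_star q x }
  have hψ : ∀ x, ψ (mk ω A x) = q x := fun _ => rfl
  have hm : ∀ y : FixCentral ω α N, ψ y ∈ P095.Fix q (id : A → A) fun n : N => σ n := by
    intro y
    refine P095.mem_fix.2 ⟨?_, fun n => ?_⟩
    · rw [StarSubalgebra.mem_centralizer_iff]
      rintro _ ⟨a, rfl⟩
      have := (StarSubalgebra.mem_centralizer_iff ℂ).1 y.2.1 _ ⟨a, rfl⟩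
      refine ⟨?_, ?_⟩
      · have e := congrArg ψ this.1
        rwa [map_mul, map_mul] at e
      · have e := congrArg ψ this.2
        rwa [map_mul, map_mul, map_star] at e
    · obtain ⟨x, h1, h2⟩ := y.2.2 n n.2
      conv_lhs => rw [← h1, hψ, hσ]
      rw [← h2]
      rfl
  exact ⟨fun χ => h.false (χ.comp ((ψ.comp (FixCentral ω α N).subtype).codRestrict _ hm))⟩

theorem orth_fix (hω : (ω : Filter ℕ) ≤ cofinite) [Nontrivial A] [SeparableSpace A]
    {q : Linf A →⋆ₐ[ℂ] E} (hq : IsUlt ω q) [Countable K] {s : K → A →⋆ₐ[ℂ] A}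
    {σ : K → E →⋆ₐ[ℂ] E} (hσ : P095.Ind q s σ)
    (h : IsEmpty (P095.Fix q (id : A → A) σ →⋆ₐ[ℂ] ℂ)) : P095.Orth (P095.Fix q (id : A → A) σ) := by
  refine P095.orth_of_cpone (P095.cpone_quot hω hq hσ (c := fun _ : Unit => 1)
    (π := StarAlgHom.id ℂ _) ⟨Function.surjective_id, fun x => ?_, fun x ε hε =>
      ⟨0, rfl, by rw [sub_zero]; exact le_add_of_nonneg_right hε.le⟩⟩) h
  have e : q (cst A 1) = 1 := map_one q
  simp only [e, mul_one]
  exact ⟨fun h _ => congrArg Subtype.val h, fun h => Subtype.ext (h ())⟩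

theorem nochar_orth [Nontrivial A] {q : Linf A →⋆ₐ[ℂ] E} (hq : IsUlt ω q) [Group G]
    {s : G → A →⋆ₐ[ℂ] A} (s1 : ∀ x, s 1 x = x) (sm : ∀ g h x, s (g * h) x = s g (s h x))
    {σ : G → E →⋆ₐ[ℂ] E} (hσ : P095.Ind q s σ) (N : Subgroup G)
    (ho : P095.Orth (P095.Fix q (id : A → A) fun n : N => σ n))
    (W S : Finset G) (hN : ∀ g ∈ Subgroup.closure (W : Set G), ∀ n ∈ N, g * n * g⁻¹ ∈ N)
    (hS : ∀ g ∈ Subgroup.closure (W : Set G), ∃ t ∈ S, ∃ n ∈ N, ∃ u ∈ unitary A,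
      ∀ a, s g a = u * s (t * n) a * star u) :
    IsEmpty (P095.Fix q (id : A → A) (fun w : W => σ w) →⋆ₐ[ℂ] ℂ) := by
  have e1 : ∀ x, σ 1 x = x := fun x => by
    obtain ⟨x, rfl⟩ := hq.surj x
    rw [hσ]
    exact congrArg q (lp.ext (funext fun n => s1 (x n)))
  have em : ∀ g h x, σ (g * h) x = σ g (σ h x) := fun g h x => by
    obtain ⟨x, rfl⟩ := hq.surj x
    rw [hσ, hσ, hσ]
    exact congrArg q (lp.ext (funext fun n => sm g h (x n)))
  have cen : ∀ g, ∀ x ∈ Cen q (id : A → A), σ g x ∈ Cen q (id : A → A) := fun g x hx =>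
    mem_cen.2 fun a => by
      have := (mem_cen.1 hx (s g⁻¹ a)).map (σ g)
      rwa [hσ g (cst A _), show Z2.mapL (s g) (cst A (s g⁻¹ a)) = cst A a from lp.ext
        (funext fun _ => (sm g g⁻¹ a).symm.trans (by rw [mul_inv_cancel, s1]; rfl))] at this
  obtain ⟨R, hR⟩ : ∃ R, R = P095.Fix q (id : A → A) fun n : N => σ n := ⟨_, rfl⟩
  have mR : ∀ x, x ∈ R ↔ x ∈ Cen q (id : A → A) ∧ ∀ n : N, σ n x = x := fun x => by
    rw [hR]; exact P095.mem_fix
  let H := Subgroup.closure (W : Set G)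
  have mem : ∀ (g : H) (x : R), σ g x ∈ R := fun g x => (mR _).2 ⟨cen _ _ ((mR _).1 x.2).1,
    fun n => by
      have h := ((mR _).1 x.2).2 ⟨_, hN _ (inv_mem g.2) n n.2⟩
      conv_rhs => rw [← h]
      rw [← em, ← em]
      congr 2
      group⟩
  let τ : H → R →ₐ[ℂ] R := fun g =>
    { toFun := fun x => ⟨σ g x, mem g x⟩
      map_one' := Subtype.ext (map_one (σ g))
      map_mul' := fun x y => Subtype.ext (map_mul (σ g) x.1 y.1)
      map_zero' := Subtype.ext (map_zero (σ g))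
      map_add' := fun x y => Subtype.ext (map_add (σ g) x.1 y.1)
      commutes' := fun c => Subtype.ext (AlgHomClass.commutes (σ g) c) }
  let ρ : H →* (R →ₐ[ℂ] R) :=
    { toFun := τ
      map_one' := AlgHom.ext fun x => Subtype.ext (e1 x)
      map_mul' := fun g h => AlgHom.ext fun x => Subtype.ext (em g h x) }
  have inn : ∀ g : H, ∃ t ∈ S, ∀ x : R, σ g x = σ t x := fun g => by
    obtain ⟨t, ht, n, hn, u, hu, h⟩ := hS g g.2
    refine ⟨t, ht, fun x => ?_⟩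
    obtain ⟨y, hy⟩ := hq.surj x
    have k1 : σ g x = q (cst A u) * σ (t * n) x * q (cst A (star u)) := by
      rw [← hy, hσ, hσ, ← map_mul, ← map_mul]
      exact congrArg q (lp.ext (funext fun n => h (y n)))
    have k2 : q (cst A u) * q (cst A (star u)) = 1 := by
      rw [← map_mul, ← map_one q]
      exact congrArg q (lp.ext (funext fun _ => hu.2))
    rw [k1, em, ((mR _).1 x.2).2 ⟨n, hn⟩, ← (mem_cen.1 (cen t x ((mR _).1 x.2).1) u).eq, mul_assoc,
      k2, mul_one]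
  let H' := ρ.toHomUnits.range
  have hf : (H' : Set (R →ₐ[ℂ] R)ˣ).Finite := by
    refine Set.Finite.of_finite_image (f := fun h : (R →ₐ[ℂ] R)ˣ => fun x : R => (h.1 x : E))
      ((S.finite_toSet.image fun t => fun x : R => σ t x).subset ?_) fun a _ b _ h =>
        Units.ext (AlgHom.ext fun x => Subtype.ext (congrFun h x))
    rintro _ ⟨_, ⟨g, rfl⟩, rfl⟩
    obtain ⟨t, ht, h⟩ := inn g
    exact ⟨t, ht, funext fun x => (h x).symm⟩
  have : Fintype H' := hf.fintype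
  let S' : Subalgebra ℂ R := ⨅ h : H', AlgHom.equalizer h.1.1 (AlgHom.id ℂ _)
  have hS' : ∀ x, x ∈ S' ↔ ∀ h : H', h.1.1 x = x := fun x => by
    simp only [S', Algebra.mem_iInf, AlgHom.mem_equalizer, AlgHom.id_apply]
  have hE := P095.fin_nochar (fun h : H' => h.1.1) (fun _ => rfl) (fun _ _ _ => rfl)
    (by subst hR; exact ho) S' hS'
  refine ⟨fun χ => hE.false ?_⟩
  let i : S' →ₐ[ℂ] P095.Fix q (id : A → A) (fun w : W => σ w) :=
    { toFun := fun x => ⟨x.1.1, P095.mem_fix.2 ⟨((mR _).1 x.1.2).1, fun w => congrArg Subtype.val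
        ((hS' _).1 x.2 ⟨ρ.toHomUnits ⟨w, Subgroup.subset_closure w.2⟩,
          ⟨w, Subgroup.subset_closure w.2⟩, rfl⟩)⟩⟩
      map_one' := rfl
      map_mul' := fun _ _ => rfl
      map_zero' := rfl
      map_add' := fun _ _ => rfl
      commutes' := fun _ => rfl }
  exact χ.toAlgHom.comp i

theorem main_char [Group G] [Countable G] [Nontrivial A] [SeparableSpace A] [SeparableSpace Z]
    (hω : (ω : Filter ℕ) ≤ cofinite) (hZ : DropLimit Z) (hf : HalfFlip Z)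
    (ι : A →⋆ₐ[ℂ] T) (j : Z →⋆ₐ[ℂ] T) (hι : Function.Injective ι)
    (hc : ∀ a d, Commute (ι a) (j d))
    (hd : Dense (StarAlgebra.adjoin ℂ (Set.range ι ∪ Set.range j) : Set T))
    (α : G →* Aut A) (β : G →* Aut T)
    (b1 : ∀ g a, β g (ι a) = ι (α g a)) (b2 : ∀ g d, β g (j d) = j d)
    (hG : ∀ W : Finset G, ∃ (N : Subgroup G) (S : Finset G),
      IsEmpty (FixCentral ω α N →⋆ₐ[ℂ] ℂ) ∧
      ∀ g ∈ Subgroup.closure (W : Set G), (∀ n ∈ N, g * n * g⁻¹ ∈ N) ∧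
        ∃ t ∈ S, ∃ n ∈ N, ∃ u ∈ unitary A, ∀ a, α g a = u * α (t * n) a * star u) :
    CocycleConj α β := by
  obtain ⟨E, _, _, q, hq⟩ := exists_ult (A := A) ω
  obtain ⟨σ, hσ⟩ := P095.exists_ind hq fun g : G => (α g : A →⋆ₐ[ℂ] A)
  refine P095.intertwineG ι j hι hd α β b1 fun W X Y ε hε => ?_
  obtain ⟨N, S, h0, hS⟩ := hG W
  have no := nochar_orth hq (s := fun g : G => (α g : A →⋆ₐ[ℂ] A))
    (fun x => by show α 1 x = x; rw [map_one]; rfl)
    (fun g h x => by show α (g * h) x = α g (α h x); rw [map_mul]; rfl) hσ N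
    (orth_fix hω hq (s := fun n : N => (α n : A →⋆ₐ[ℂ] A)) (fun n x => hσ n x)
      (char_fix hq α hσ N h0)) W S (fun g hg => (hS g hg).1) fun g hg => (hS g hg).2
  have hσW : P095.Ind q (fun w : W => (α w : A →⋆ₐ[ℂ] A)) fun w : W => σ w := fun w x => hσ w x
  obtain ⟨z, hz, a1, a2⟩ := P095.approxG hω hq hZ hf hσW (drop (P095.cp_fix hω hq hσW) no) ι j hι hc
    (fun g : W => (β g : T →⋆ₐ[ℂ] T)) (fun g a => b1 g a) (fun g d => b2 g d) X Y ε hε
  exact ⟨z, hz, fun g hg => a1 ⟨g, hg⟩, a2⟩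

end Vale.Agent.P095H
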