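import Vale.Agent.P101.Defs

/-! Definitions for P095. -/

namespace Vale.Agent.P095H

/-- `Z` contains approximately central unital copies of itself. -/
def CentralCopies (Z : Type) [CStarAlgebra Z] : Prop :=
  ∀ (s : Finset Z) (ε : ℝ), 0 < ε → ∃ γ : Z →⋆ₐ[ℂ] Z, ∀ d ∈ s, ∀ d' ∈ s, ‖γ d * d' - d' * γ d‖ < ε

/-- The star automorphisms. -/
abbrev Aut (A : Type) [CStarAlgebra A] : Type := A ≃⋆ₐ[ℂ] A

/-- Cocycle conjugacy of actions on unital algebras. -/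
def CocycleConj {G A B : Type} [Group G] [CStarAlgebra A] [CStarAlgebra B] (α : G →* Aut A)
    (β : G →* Aut B) : Prop :=
  ∃ (Φ : A ≃⋆ₐ[ℂ] B) (u : G → B), (∀ g, u g ∈ unitary B) ∧ (∀ g h, u (g * h) = u g * β g (u h)) ∧
    ∀ g a, Φ (α g a) = u g * β g (Φ a) * star (u g)

end Vale.Agent.P095H
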