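import Vale.Agent.P095H.Defs

/-! Invariant central sequences. -/

namespace Vale.Agent.P095H

open Vale.Agent.P101

variable {G A : Type} [Group G] [CStarAlgebra A]

/-- An automorphism applied to each term of a bounded sequence. -/
noncomputable def act (φ : Aut A) (y : Linf A) : Linf A :=
  ⟨fun n => φ (y n), memℓp_infty ⟨‖y‖, by
    rintro _ ⟨n, rfl⟩
    exact (NonUnitalStarAlgHom.norm_apply_le φ (y n)).trans
      (lp.norm_apply_le_norm ENNReal.top_ne_zero y n)⟩⟩

/-- The elements of the central sequence algebra fixed by the maps induced by `α g`, `g ∈ N`. -/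
noncomputable def FixCentral (ω : Ultrafilter ℕ) [Nontrivial A] (α : G →* Aut A) (N : Subgroup G) :
    StarSubalgebra ℂ (Ult ω A) where
  carrier := {x | x ∈ Central ω A ∧ ∀ g ∈ N, ∃ y, mk ω A y = x ∧ mk ω A (act (α g) y) = x}
  mul_mem' := fun {a b} ha hb => ⟨mul_mem ha.1 hb.1, fun g hg => by
    obtain ⟨y, h1, h2⟩ := ha.2 g hg
    obtain ⟨z, h3, h4⟩ := hb.2 g hg
    refine ⟨y * z, by rw [← h1, ← h3]; rfl, ?_⟩
    rw [← h2, ← h4]
    exact congrArg (mk ω A) (lp.ext (funext fun n => map_mul (α g) (y n) (z n)) :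
      act (α g) (y * z) = act (α g) y * act (α g) z)⟩
  add_mem' := fun {a b} ha hb => ⟨add_mem ha.1 hb.1, fun g hg => by
    obtain ⟨y, h1, h2⟩ := ha.2 g hg
    obtain ⟨z, h3, h4⟩ := hb.2 g hg
    refine ⟨y + z, by rw [← h1, ← h3]; rfl, ?_⟩
    rw [← h2, ← h4]
    exact congrArg (mk ω A) (lp.ext (funext fun n => map_add (α g) (y n) (z n)) :
      act (α g) (y + z) = act (α g) y + act (α g) z)⟩
  algebraMap_mem' := fun c => ⟨algebraMap_mem _ c, fun g _ => ⟨algebraMap ℂ _ c, rfl,
    congrArg (mk ω A) (lp.ext (funext fun _ => AlgHomClass.commutes (α g) c) :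
      act (α g) (algebraMap ℂ _ c) = algebraMap ℂ _ c)⟩⟩
  star_mem' := fun {a} ha => ⟨star_mem ha.1, fun g hg => by
    obtain ⟨y, h1, h2⟩ := ha.2 g hg
    refine ⟨star y, by rw [← h1]; rfl, ?_⟩
    rw [← h2]
    exact congrArg (mk ω A) (lp.ext (funext fun n => map_star (α g) (y n)) :
      act (α g) (star y) = star (act (α g) y))⟩

end Vale.Agent.P095H
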