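import Vale.Agent.P095H.DefsN2

/-! Equivariant uniform McDuff property in the central sequence algebra modulo the annihilator. -/

namespace Vale.Agent.P095H

open Vale.Agent.P101

variable (ω : Ultrafilter ℕ) {B : Type} [CStarAlgebra B]

/-- An almost invariant central sequence that is a two by two matrix unit up to `ε` in the two-norm
of every tracial state of the central sequences modulo the annihilator of `J`. -/
def McDF [Nontrivial B] (J : Set B) {G : Type} (φ : G → B → B) (K : Finset G) (ε : ℝ) : Prop :=
  ∃ v : Linf B, (∀ m, ‖v m‖ ≤ 1) ∧ CSeq ω v ∧ (∀ g ∈ K, AlmostInv ω J (φ g) v ε) ∧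
    ∀ ρ, TrS ω J ρ → (ρ (star (v * v) * (v * v))).re ≤ ε ∧
      (ρ ((1 - star v * v - v * star v) ^ 2)).re ≤ ε

end Vale.Agent.P095H
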