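import Vale.Agent.P095H.DefsC

/-! Tracial states of the central sequence algebra of an algebra without unit. -/

namespace Vale.Agent.P095H

open Vale.Agent.P101

variable (ω : Ultrafilter ℕ) (A : Type) [NonUnitalCStarAlgebra A]

/-- The central sequence `x` annihilates all constant sequences from `A`. -/
def Ann (x : Central ω (Unitization ℂ A)) : Prop :=
  ∀ a : A, x.1 * mk ω _ (cst _ (a : Unitization ℂ A)) = 0

/-- Tracial states of the quotient of the central sequence algebra by the annihilator of `A`. -/
structure TrF (ρ : Central ω (Unitization ℂ A) →ₗ[ℂ] ℂ) : Prop where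
  one : ρ 1 = 1
  pos : ∀ x, 0 ≤ (ρ (star x * x)).re ∧ (ρ (star x * x)).im = 0
  comm : ∀ x y, ρ (x * y) = ρ (y * x)
  ann : ∀ x, Ann ω A x → ρ x = 0

end Vale.Agent.P095H
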