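import Vale.Agent.P101.Defs

/-! Equivariant property Gamma in the central sequence algebra modulo the annihilator. -/

namespace Vale.Agent.P095H

open Filter Topology Vale.Agent.P101

variable (ω : Ultrafilter ℕ) {B : Type} [CStarAlgebra B]

/-- A sequence of positive contractions. -/
def PosSeq (y : Linf B) : Prop := ∀ m, IsSelfAdjoint (y m) ∧ spectrum ℝ (y m) ⊆ Set.Icc 0 1

/-- Central sequences along `ω`. -/
def CSeq (y : Linf B) : Prop := ∀ b : B, Tendsto (fun m => ‖y m * b - b * y m‖) ω (𝓝 0)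

/-- Sequences that annihilate `J` along `ω`. -/
def ASeq (J : Set B) (y : Linf B) : Prop := ∀ a ∈ J, Tendsto (fun m => ‖y m * a‖) ω (𝓝 0)

/-- The sequence `y` is moved by at most `ε` in the norm modulo the annihilator of `J`. -/
def AlmostInv (J : Set B) (φ : B → B) (y : Linf B) (ε : ℝ) : Prop :=
  ∀ a ∈ J, ‖a‖ ≤ 1 → ∀ᶠ m in (ω : Filter ℕ), ‖(φ (y m) - y m) * a‖ < ε

/-- Linear functionals that induce a tracial state on the central sequences modulo the annihilator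
of `J`. -/
structure TrS [Nontrivial B] (J : Set B) (ρ : Linf B →ₗ[ℂ] ℂ) : Prop where
  one : ρ 1 = 1
  pos : ∀ x, CSeq ω x → 0 ≤ (ρ (star x * x)).re ∧ (ρ (star x * x)).im = 0
  comm : ∀ x y, CSeq ω x → CSeq ω y → ρ (x * y) = ρ (y * x)
  ann : ∀ x, CSeq ω x → ASeq ω J x → ρ x = 0

/-- Equivariant property Gamma up to `ε` for the maps `φ g`, `g ∈ K`, modulo the annihilator of
`J`. -/
def GammaF [Nontrivial B] (J : Set B) {G : Type} (φ : G → B → B) (n : ℕ) (K : Finset G) (ε : ℝ) :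
    Prop :=
  ∃ y : Fin n → Linf B, (∀ i k, i ≠ k → ASeq ω J (y i * y k)) ∧ ∀ i, PosSeq (y i) ∧ CSeq ω (y i) ∧
    (∀ g ∈ K, AlmostInv ω J (φ g) (y i) ε) ∧ ∀ ρ, TrS ω J ρ → ‖ρ (y i) - 1 / n‖ ≤ ε

/-- The unital extension of an automorphism to the unitization. -/
noncomputable def uext {A : Type} [NonUnitalCStarAlgebra A] (φ : A ≃⋆ₐ[ℂ] A) :
    Unitization ℂ A → Unitization ℂ A :=
  Unitization.starMap (φ : A →⋆ₙₐ[ℂ] A)

end Vale.Agent.P095H
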