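import Vale.Agent.P095H.DefsN2

/-! Equivariant property (SI) modulo the annihilator. -/

namespace Vale.Agent.P095H

open Filter Topology Vale.Agent.P101

variable (ω : Ultrafilter ℕ) {B G : Type} [CStarAlgebra B]

/-- Central sequences that are invariant along `ω`. -/
def CInvF (φ : G → B → B) (x : Linf B) : Prop :=
  CSeq ω x ∧ ∀ g, Tendsto (fun n => ‖φ g (x n) - x n‖) ω (𝓝 0)

/-- Contractive functionals whose limits along `ω` are tracial states on the central sequences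
modulo the annihilator of `J`. -/
def LimTr [Nontrivial B] (J : Set B) (S : Set (B →ₗ[ℂ] ℂ)) : Prop :=
  (∀ τ ∈ S, ∀ x, ‖τ x‖ ≤ ‖x‖) ∧ ∀ τ : ℕ → B →ₗ[ℂ] ℂ, (∀ m, τ m ∈ S) → ∀ ρ : Linf B →ₗ[ℂ] ℂ,
    (∀ x : Linf B, Tendsto (fun m => τ m (x m)) ω (𝓝 (ρ x))) → TrS ω J ρ

/-- Equivariant property (SI) relative to `S`, modulo the annihilator of `J`. -/
def EqSIF [Nontrivial B] (J : Set B) (S : Set (B →ₗ[ℂ] ℂ)) (φ : G → B → B) : Prop :=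
  ∀ e f : Linf B, CInvF ω φ e → CInvF ω φ f → PosSeq e → PosSeq f →
    (∀ ε : ℝ, 0 < ε → ∀ᶠ n in (ω : Filter ℕ), ∀ τ ∈ S, (τ (e n)).re ≤ ε) →
    (∃ c : ℝ, 0 < c ∧ ∀ m : ℕ, ∀ᶠ n in (ω : Filter ℕ), ∀ τ ∈ S, c ≤ (τ (f n ^ m)).re) →
    ∃ s : Linf B, CInvF ω φ s ∧ ASeq ω J (star s * s - e) ∧ ASeq ω J (f * s - s)

end Vale.Agent.P095H
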