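import Vale.Agent.P095H.Work
import Vale.Agent.P101.PartZ3
import Vale.Agent.P101.PartZ4

/-! One-sided intertwining with constrained unitaries. -/

namespace Vale.Agent.P095H

open Filter Topology Finset Vale.Agent.P101 Vale.Agent.P101.Z3

variable {A T Z : Type} [CStarAlgebra A] [CStarAlgebra T] [CStarAlgebra Z]

theorem upgradeP (P : T → Prop) (ι : A →⋆ₐ[ℂ] T) (j : Z →⋆ₐ[ℂ] T)
    (hd : Dense (StarAlgebra.adjoin ℂ (Set.range ι ∪ Set.range j) : Set T))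
    (h : ∀ (X : Finset A) (Y : Finset Z) (ε : ℝ), 0 < ε → ∃ z ∈ unitary T, P z ∧
      (∀ a ∈ X, ‖z * ι a - ι a * z‖ < ε) ∧ ∀ d ∈ Y, ∃ a, ‖z * j d * star z - ι a‖ < ε)
    (X : Finset A) (Y : Finset T) (ε : ℝ) (hε : 0 < ε) : ∃ z ∈ unitary T, P z ∧
      (∀ a ∈ X, ‖z * ι a - ι a * z‖ < ε) ∧ ∀ t ∈ Y, ∃ a, ‖z * t * star z - ι a‖ < ε := by
  have h1 : ∀ᶠ z in Z4.fil ι j, ∀ a ∈ X, ‖z * ι a - ι a * z‖ < ε :=
    ⟨X, ∅, ε, hε, fun _ _ h1 _ => h1⟩
  have h2 := (Y.eventually_all).2 fun t _ => Z4.all ι j hd t ε hε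
  obtain ⟨X', Y', δ, h0, h3⟩ := h1.and h2
  obtain ⟨z, hz, hP, a1, a2⟩ := h X' Y' δ h0
  exact ⟨z, hz, hP, h3 z hz a1 a2⟩

lemma stepP (P : ℕ → T → Prop) (ι : A →⋆ₐ[ℂ] T)
    (h : ∀ (n : ℕ) (X : Finset A) (Y : Finset T) (ε : ℝ), 0 < ε → ∃ z ∈ unitary T, P n z ∧
      (∀ a ∈ X, ‖z * ι a - ι a * z‖ < ε) ∧ ∀ t ∈ Y, ∃ a, ‖z * t * star z - ι a‖ < ε)
    (a : ℕ → A) (t : ℕ → T) (n : ℕ) (s : unitary T × Finset A) :
    ∃ s' : unitary T × Finset A, s.2 ⊆ s'.2 ∧ a n ∈ s'.2 ∧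
      (∀ x ∈ s.2, dist (cj s.1 (ι x)) (cj s'.1 (ι x)) ≤ (1 / 2) ^ n) ∧
      (∀ j ≤ n, ∃ x ∈ s'.2, dist (cj s'.1 (ι x)) (t j) ≤ (1 / 2) ^ n) ∧
      ∃ z : unitary T, P n z ∧ s'.1 = s.1 * star z := by
  classical
  obtain ⟨z, hz, hP, h1, h2⟩ := h n s.2 ((range (n + 1)).image fun j => cj (star s.1) (t j))
    ((1 / 2) ^ n) (by positivity)
  have h3 : ∀ j, ∃ x, j ≤ n → ‖z * cj (star s.1) (t j) * star z - ι x‖ < (1 / 2) ^ n := fun j => by
    by_cases hj : j ≤ n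
    · obtain ⟨x, hx⟩ := h2 _ (mem_image_of_mem _ (mem_range.2 (Nat.lt_succ_of_le hj)))
      exact ⟨x, fun _ => hx⟩
    · exact ⟨0, fun h => absurd h hj⟩
  choose x hx using h3
  have hm : ∀ u v : unitary T, ∀ y, cj (u * v) y = cj u (cj v y) := fun u v y => by
    simp [mul_assoc]
  refine ⟨(s.1 * star ⟨z, hz⟩, insert (a n) (s.2 ∪ (range (n + 1)).image x)),
    fun y hy => by simp [hy], by simp, fun y hy => ?_, fun j hj =>
      ⟨x j, mem_insert_of_mem (mem_union_right _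
        (mem_image_of_mem _ (mem_range.2 (Nat.lt_succ_of_le hj)))), ?_⟩, ⟨z, hz⟩, hP, rfl⟩
  · rw [dist_eq_norm, hm, ← map_sub, norm_cj, ← CStarRing.norm_mem_unitary_mul _ hz]
    refine le_of_eq_of_le (congrArg _ ?_) (h1 y hy).le
    simp [mul_sub, ← mul_assoc, Unitary.mul_star_self_of_mem hz]
  · rw [dist_comm, dist_eq_norm, ← norm_cj (star (s.1 * star ⟨z, hz⟩)), map_sub, ← hm,
      Unitary.star_mul_self, star_mul, star_star, hm]
    refine le_of_eq_of_le (congrArg _ ?_) (hx j hj).le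
    simp

lemma seqP (P : ℕ → T → Prop) (ι : A →⋆ₐ[ℂ] T) (hι : Function.Injective ι)
    (h : ∀ (n : ℕ) (X : Finset A) (Y : Finset T) (ε : ℝ), 0 < ε → ∃ z ∈ unitary T, P n z ∧
      (∀ a ∈ X, ‖z * ι a - ι a * z‖ < ε) ∧ ∀ t ∈ Y, ∃ a, ‖z * t * star z - ι a‖ < ε)
    (a : ℕ → A) (t : ℕ → T) : ∃ (ψ : ℕ → A →⋆ₐ[ℂ] T) (X : ℕ → Finset A) (w : ℕ → unitary T),
      (∀ n x, ψ n x = cj (w n) (ι x)) ∧ (∀ n, ∃ z : unitary T, P n z ∧ w (n + 1) = w n * star z) ∧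
      (∀ n x y, dist (ψ n x) (ψ n y) = dist x y) ∧ (∀ n, a n ∈ X (n + 1)) ∧
      (∀ m, ∀ x ∈ X m, ∀ k, dist (ψ (k + m) x) (ψ (k + 1 + m) x) ≤ (1 / 2) ^ m * (1 / 2) ^ k) ∧
      ∀ n, ∀ j ≤ n, ∃ x ∈ X (n + 1), dist (ψ (n + 1) x) (t j) ≤ (1 / 2) ^ n := by
  choose f hf using stepP P ι h a t
  obtain ⟨s, hs⟩ : ∃ s : ℕ → unitary T × Finset A, ∀ n, s (n + 1) = f n (s n) :=
    ⟨fun n => Nat.rec (1, ∅) f n, fun _ => rfl⟩
  have mono : Monotone fun n => (s n).2 :=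
    monotone_nat_of_le_succ fun n => by rw [hs]; exact (hf n (s n)).1
  have hψ : ∀ (w : unitary T) x, ((cj w : T →⋆ₐ[ℂ] T)).comp ι x = cj w (ι x) := fun _ _ => rfl
  refine ⟨fun n => ((cj (s n).1 : T →⋆ₐ[ℂ] T)).comp ι, fun n => (s n).2, fun n => (s n).1,
    fun _ _ => rfl, fun n => ?_, fun n x y => ?_, fun n => ?_, fun m x hx k => ?_, fun n j hj => ?_⟩
  · simp only [hs]
    exact (hf n (s n)).2.2.2.2
  · rw [dist_eq_norm, ← map_sub, hψ, norm_cj, NonUnitalStarAlgHom.norm_map ι hι, dist_eq_norm]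
  · simp only [hs]
    exact (hf n (s n)).2.1
  · rw [← pow_add, add_comm m, add_right_comm, hψ, hψ, hs]
    exact (hf (k + m) (s (k + m))).2.2.1 x (mono (Nat.le_add_left m k) hx)
  · simp only [hψ, hs]
    exact (hf n (s n)).2.2.2.1 j hj

theorem intertwineP [TopologicalSpace.SeparableSpace A] [TopologicalSpace.SeparableSpace T]
    (P : ℕ → T → Prop) (ι : A →⋆ₐ[ℂ] T) (hι : Function.Injective ι)
    (h : ∀ (n : ℕ) (X : Finset A) (Y : Finset T) (ε : ℝ), 0 < ε → ∃ z ∈ unitary T, P n z ∧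
      (∀ a ∈ X, ‖z * ι a - ι a * z‖ < ε) ∧ ∀ t ∈ Y, ∃ a, ‖z * t * star z - ι a‖ < ε) :
    ∃ (Φ : A ≃⋆ₐ[ℂ] T) (w : ℕ → unitary T),
      (∀ n, ∃ z : unitary T, P n z ∧ w (n + 1) = w n * star z) ∧
      ∀ x, Tendsto (fun n => cj (w n) (ι x)) atTop (𝓝 (Φ x)) := by
  obtain ⟨a, ha⟩ := TopologicalSpace.exists_dense_seq A
  obtain ⟨t, ht⟩ := TopologicalSpace.exists_dense_seq T
  obtain ⟨ψ, X, w, hw, hP, hd, hX, geo, ap⟩ := seqP P ι hι h a t
  have cau : ∀ x, CauchySeq fun n => ψ n x := fun x => by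
    refine Metric.cauchySeq_iff.2 fun ε hε => ?_
    obtain ⟨k, hk⟩ := ha.exists_dist_lt x (show 0 < ε / 3 by positivity)
    have c1 : CauchySeq fun n => ψ n (a k) :=
      (cauchySeq_shift (u := fun n => ψ n (a k)) (k + 1)).1
        (cauchySeq_of_le_geometric (1 / 2) _ (by norm_num) (geo (k + 1) _ (hX k)))
    obtain ⟨N, hN⟩ := Metric.cauchySeq_iff.1 c1 (ε / 3) (by positivity)
    refine ⟨N, fun m hm n hn' => ?_⟩
    have e1 := dist_triangle4 (ψ m x) (ψ m (a k)) (ψ n (a k)) (ψ n x)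
    rw [hd, hd, dist_comm (a k)] at e1
    linarith [hN m hm n hn']
  obtain ⟨Φ, hφ⟩ := lim ψ cau
  have iso : Isometry Φ := Isometry.of_dist_eq fun x y =>
    tendsto_nhds_unique ((hφ x).dist (hφ y)) (by simp [hd])
  refine ⟨StarAlgEquiv.ofBijective Φ ⟨iso.injective, Set.range_eq_univ.1 ?_⟩, w, hP,
    fun x => (hφ x).congr fun n => hw n x⟩
  refine Set.eq_univ_of_univ_subset ?_
  rw [← ht.closure_range]
  refine closure_minimal ?_ iso.isClosedEmbedding.isClosed_range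
  rintro _ ⟨j, rfl⟩
  rw [← iso.isClosedEmbedding.isClosed_range.closure_eq, Metric.mem_closure_range_iff]
  intro ε hε
  obtain ⟨n, hn1, hn2⟩ := (((tendsto_pow_atTop_nhds_zero_of_lt_one (r := (1 / 2 : ℝ)) (by norm_num)
    (by norm_num)).eventually (gt_mem_nhds (show 0 < ε / 2 by positivity))).and
      (eventually_ge_atTop j)).exists
  obtain ⟨x, hx, e3⟩ := ap n j hn2
  have e1 : dist (ψ (0 + (n + 1)) x) (Φ x) ≤ _ :=
    dist_le_of_le_geometric_of_tendsto₀ (f := fun k => ψ (k + (n + 1)) x) (1 / 2) _ (by norm_num)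
      (geo (n + 1) x hx) ((hφ x).comp (tendsto_add_atTop_nat (n + 1)))
  refine ⟨x, ?_⟩
  have e2 := dist_triangle_left (t j) (Φ x) (ψ (n + 1) x)
  rw [zero_add, pow_succ, mul_div_assoc] at e1
  norm_num at e1 e3 hn1 ⊢
  linarith

/-- The cocycle. -/
theorem cocycle {G : Type} [Group G] (α : G →* (A ≃⋆ₐ[ℂ] A)) (β : G →* (T ≃⋆ₐ[ℂ] T))
    (ι : A →⋆ₐ[ℂ] T) (h1 : ∀ g a, β g (ι a) = ι (α g a)) (P : ℕ → T → Prop)
    (hP : ∀ g, ∃ N, ∀ n, N ≤ n → ∀ z, P n z → β g z = z) (Φ : A ≃⋆ₐ[ℂ] T) (w : ℕ → unitary T)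
    (hw : ∀ n, ∃ z : unitary T, P n z ∧ w (n + 1) = w n * star z)
    (hΦ : ∀ x, Tendsto (fun n => cj (w n) (ι x)) atTop (𝓝 (Φ x))) :
    ∃ u : G → T, (∀ g, u g ∈ unitary T) ∧ (∀ g h, u (g * h) = u g * β g (u h)) ∧
      ∀ g a, Φ (α g a) = u g * β g (Φ a) * star (u g) := by
  choose N hN using hP
  have key : ∀ g n, N g ≤ n → (w n : T) * β g (star (w n : T)) =
      (w (N g) : T) * β g (star (w (N g) : T)) := fun g n hn => by
    induction n, hn using Nat.le_induction with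
    | base => rfl
    | succ n hn ih =>
      obtain ⟨z, hz, e⟩ := hw n
      rw [← ih, e]
      simp only [Submonoid.coe_mul, Unitary.coe_star, star_mul, star_star, map_mul]
      rw [hN g n hn z hz, mul_assoc, ← mul_assoc (star (z : T)), Unitary.star_mul_self_of_mem z.2,
        one_mul]
  have un : ∀ g (x : T), x ∈ unitary T → β g x ∈ unitary T := fun g x hx =>
    ⟨by rw [← map_star, ← map_mul, hx.1, map_one], by rw [← map_star, ← map_mul, hx.2, map_one]⟩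
  refine ⟨fun g => (w (N g) : T) * β g (star (w (N g) : T)),
    fun g => mul_mem (w _).2 (un g _ (Unitary.star_mem (w _).2)), fun g h => ?_, fun g a => ?_⟩
  · obtain ⟨n, a1, a2, a3⟩ : ∃ n, N g ≤ n ∧ N h ≤ n ∧ N (g * h) ≤ n :=
      ⟨N g + N h + N (g * h), by omega, by omega, by omega⟩
    simp only []
    rw [← key g n a1, ← key h n a2, ← key _ n a3, map_mul (β g), mul_assoc, ← mul_assoc (β g _),
      ← map_mul, Unitary.star_mul_self_of_mem (w n).2, map_one, one_mul, map_mul]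
    rfl
  · simp only []
    have hc : Continuous (β g) := U2.hom_cont (β g : T →⋆ₐ[ℂ] T)
    refine tendsto_nhds_unique (hΦ (α g a)) ?_
    refine ((((hc.tendsto _).comp (hΦ a)).const_mul _).mul_const _).congr' ?_
    filter_upwards [eventually_ge_atTop (N g)] with n hn
    rw [← key g n hn, ← h1]
    show (w n : T) * β g (star (w n : T)) * β g ((w n : T) * ι a * star (w n : T)) *
      star ((w n : T) * β g (star (w n : T))) = (w n : T) * β g (ι a) * star (w n : T)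
    rw [star_mul, ← map_star, star_star, mul_assoc (w n : T), ← map_mul, mul_assoc (w n : T) (β g _),
      ← mul_assoc (β g _), ← map_mul]
    have e : star (w n : T) * ((w n : T) * ι a * star (w n : T)) * (w n : T) = ι a := by
      rw [← mul_assoc, ← mul_assoc, Unitary.star_mul_self_of_mem (w n).2, one_mul, mul_assoc,
        Unitary.star_mul_self_of_mem (w n).2, mul_one]
    rw [e, mul_assoc]

end Vale.Agent.P095H
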