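import Vale.Agent.P095H.PartK
import Vale.Agent.P095H.PartY
import Vale.Agent.P095H.PartI
import Vale.Agent.P101.Glue

/-! Invariant approximately central unitaries, and the main theorem. -/

namespace Vale.Agent.P095H

open Filter Topology Finset TopologicalSpace Vale.Agent.P101 Vale.Agent.P101.U1 Vale.Agent.P101.Z2

variable {A E T Z : Type} [CStarAlgebra A] [CStarAlgebra E] [CStarAlgebra T] [CStarAlgebra Z]
  {G : Type}

/-- Invariant unitaries lift to sequences of invariant unitaries. -/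
theorem lift_inv [Group G] [Fintype G] {ω : Ultrafilter ℕ} [Nontrivial A] {q : Linf A →⋆ₐ[ℂ] E}
    (hq : IsUlt ω q) {α : G → A →⋆ₐ[ℂ] A} (hα : Act α) {σ : G → E →⋆ₐ[ℂ] E}
    (hσ : ∀ g x, σ g (q x) = q (mapL (α g) x)) {w : E} (hw : w ∈ unitary E) (hz : w ∈ Fix σ) :
    ∃ z : Linf A, q z = w ∧ ∀ n, z n ∈ unitary A ∧ z n ∈ Fix α := by
  obtain ⟨x, rfl, hx⟩ := inv_lift hq.surj hα hσ hz
  obtain ⟨E', _, _, q', h'⟩ := exists_ult (A := Fix α) ω
  obtain ⟨Φ, hΦ⟩ := induced h' hq (Fix α).subtype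
  have inj : Function.Injective Φ := (injective_iff_map_eq_zero Φ).2 fun y hy => by
    obtain ⟨y, rfl⟩ := h'.surj y
    rw [hΦ, zero_iff hq] at hy
    exact (zero_iff h' y).2 hy
  let x' : Linf (Fix α) := bd (fun n => ⟨x n, fun g => congrArg (fun y : Linf A => y n) (hx g)⟩)
    ‖x‖ fun n => le x n
  have e : Φ (q' x') = q x := hΦ x'
  obtain ⟨z, h1, h2⟩ := lift_unitary h' (u := q' x')
    ⟨inj (by rw [map_mul, map_star, e, map_one]; exact hw.1),
      inj (by rw [map_mul, map_star, e, map_one]; exact hw.2)⟩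
  exact ⟨mapL (Fix α).subtype z, by rw [← hΦ, h1, e], fun n =>
    ⟨⟨congrArg Subtype.val (h2 n).1, congrArg Subtype.val (h2 n).2⟩, (z n).2⟩⟩

theorem approxG [Group G] [Fintype G] {ω : Ultrafilter ℕ} (hω : (ω : Filter ℕ) ≤ cofinite)
    [Nontrivial A] {q : Linf A →⋆ₐ[ℂ] E} (hq : IsUlt ω q) (hZ : DropLimit Z) (hf : HalfFlip Z)
    {α : G → A →⋆ₐ[ℂ] A} {σ : G → E →⋆ₐ[ℂ] E} (hσ : ∀ g x, σ g (q x) = q (mapL (α g) x))
    (h : ∀ p r : ℕ, 0 < p → 0 < r → p.Coprime r →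
      Nonempty (DimDrop p r →⋆ₐ[ℂ] CF q (id : A → A) σ))
    (ι : A →⋆ₐ[ℂ] T) (j : Z →⋆ₐ[ℂ] T) (hι : Function.Injective ι) (hc : ∀ a d, Commute (ι a) (j d))
    {β : G → T →⋆ₐ[ℂ] T} (hβ : Act β) (b1 : ∀ g a, β g (ι a) = ι (α g a))
    (b2 : ∀ g d, β g (j d) = j d)
    (X : Finset A) (Y : Finset Z) (ε : ℝ) (hε : 0 < ε) : ∃ z ∈ unitary T, (∀ g, β g z = z) ∧
      (∀ a ∈ X, ‖z * ι a - ι a * z‖ < ε) ∧ ∀ d ∈ Y, ∃ a, ‖z * j d * star z - ι a‖ < ε := by
  have : Nontrivial T := hι.nontrivial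
  have : Nontrivial E := nontriv hq
  obtain ⟨ET, _, _, qT, hT⟩ := exists_ult (A := T) ω
  obtain ⟨Φ, hΦ⟩ := induced hq hT ι
  choose τ hτ using fun g => induced hT hT (β g)
  have m1 : ∀ g : CF q (id : A → A) σ,
      (Φ.comp (CF q (id : A → A) σ).subtype) g ∈ CF qT ι τ := by
    intro g
    refine ⟨?_, fun k => ?_⟩
    · show _ ∈ Cen qT ι
      rw [StarSubalgebra.mem_centralizer_iff]
      rintro _ ⟨a, rfl⟩
      have := (StarSubalgebra.mem_centralizer_iff ℂ).1 g.2.1 _ ⟨a, rfl⟩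
      have e : Φ (q (cst A (id a))) = qT (cst T (ι a)) := hΦ _
      refine ⟨?_, ?_⟩
      · have e' := congrArg Φ this.1
        rwa [map_mul, map_mul, e] at e'
      · have e' := congrArg Φ this.2
        rwa [map_mul, map_mul, map_star, e] at e'
    · obtain ⟨x, hx⟩ := hq.surj g
      refine Eq.trans ?_ (congrArg Φ (g.2.2 k))
      show τ k (Φ g) = Φ (σ k g)
      rw [← hx, hσ, hΦ, hΦ, hτ]
      exact congrArg qT (lp.ext (funext fun n => b1 k (x n)))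
  have m2 : ∀ d : Z, (qT.comp ((cstH T).comp j)) d ∈ CF qT ι τ := by
    intro d
    refine ⟨?_, fun k => ?_⟩
    · show _ ∈ Cen qT ι
      rw [StarSubalgebra.mem_centralizer_iff]
      rintro _ ⟨a, rfl⟩
      refine ⟨((hc a d).map (qT.comp (cstH T))).eq, ?_⟩
      have := ((hc (star a) d).map (qT.comp (cstH T))).eq
      rwa [map_star, map_star] at this
    · exact (hτ k _).trans (congrArg qT (lp.ext (funext fun _ => b2 k d)))
  obtain ⟨w, hw, hw'⟩ := Z2.flip hω hZ hf h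
    ((Φ.comp (CF q (id : A → A) σ).subtype).codRestrict _ m1)
    ((qT.comp ((cstH T).comp j)).codRestrict _ m2) (fun d g => by
      obtain ⟨x, hx⟩ := hq.surj g
      refine Subtype.ext ?_
      show qT (cstH T (j d)) * Φ g = Φ g * qT (cstH T (j d))
      rw [← hx, hΦ]
      refine (Commute.map (?_ : Commute (cstH T (j d)) (mapL ι x)) qT).eq
      exact lp.ext (funext fun n => (hc (x n) d).symm.eq)) Y hε
  have hw1 : (w : ET) ∈ unitary ET :=
    ⟨congrArg Subtype.val hw.1, congrArg Subtype.val hw.2⟩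
  obtain ⟨z, hz, hz'⟩ := lift_inv hT hβ hτ hw1 w.2.2
  have a1 : ∀ᶠ n in (ω : Filter ℕ), ∀ a ∈ X, ‖z n * ι a - ι a * z n‖ < ε :=
    (Filter.eventually_all_finset X).2 fun a _ => by
      have := ((StarSubalgebra.mem_centralizer_iff ℂ).1 w.2.1 _ ⟨a, rfl⟩).1
      rw [← hz, ← map_mul, ← map_mul] at this
      exact ((eq_iff hT _ _).1 this.symm).eventually (gt_mem_nhds hε)
  have a2 : ∀ᶠ n in (ω : Filter ℕ), ∀ d ∈ Y, ∃ a, ‖z n * j d * star (z n) - ι a‖ < ε :=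
    (Filter.eventually_all_finset Y).2 fun d hd => by
      obtain ⟨g, hg⟩ := hw' d hd
      obtain ⟨x, hx⟩ := hq.surj g
      have hg' : ‖(w : ET) * qT (cstH T (j d)) * star (w : ET) - Φ g‖ < ε := hg
      rw [← hz, ← hx, hΦ] at hg'
      exact (pick hT z (cstH T (j d)) (mapL ι x) hg').mono fun n hn => ⟨x n, hn⟩
  obtain ⟨n, h1, h2⟩ := (a1.and a2).exists
  exact ⟨z n, (hz' n).1, (hz' n).2, h1, h2⟩

theorem approx_fin [Group G] [Fintype G] [Nontrivial A] [SeparableSpace A] [SeparableSpace Z]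
    [IsSimpleRing Z] (hinf : ¬ FiniteDimensional ℂ Z) (hZ : DropLimit Z) (hf : HalfFlip Z)
    (hcc : CentralCopies Z) (ι : A →⋆ₐ[ℂ] T) (j : Z →⋆ₐ[ℂ] T) (hι : Function.Injective ι)
    (hc : ∀ a d, Commute (ι a) (j d))
    (hd : Dense (StarAlgebra.adjoin ℂ (Set.range ι ∪ Set.range j) : Set T)) (e : A ≃⋆ₐ[ℂ] T)
    {α : G → A →⋆ₐ[ℂ] A} (hα : Act α) {β : G → T →⋆ₐ[ℂ] T} (hβ : Act β)
    (b1 : ∀ g a, β g (ι a) = ι (α g a)) (b2 : ∀ g d, β g (j d) = j d)
    (X : Finset A) (Y : Finset T) (ε : ℝ) (hε : 0 < ε) : ∃ z ∈ unitary T, (∀ g, β g z = z) ∧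
      (∀ a ∈ X, ‖z * ι a - ι a * z‖ < ε) ∧ ∀ t ∈ Y, ∃ a, ‖z * t * star z - ι a‖ < ε := by
  have hω : ((hyperfilter ℕ : Ultrafilter ℕ) : Filter ℕ) ≤ cofinite := hyperfilter_le_cofinite
  obtain ⟨E, _, _, q, hq⟩ := exists_ult (A := A) (hyperfilter ℕ)
  choose σ hσ using fun g => induced hq hq (α g)
  obtain ⟨Δ, hΔ, -⟩ := delta hω hq hcc ι j hc hd e
  have m : ∀ g (z : Cen q (id : A → A)), ((σ g).comp (Cen q (id : A → A)).subtype) z ∈
      Cen q (id : A → A) := fun g z => U2.mem_cen.2 fun a => by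
    have := (U2.mem_cen.1 z.2 (α g⁻¹ a)).map (σ g)
    rwa [hσ g (cst A _), show mapL (α g) (cst A (α g⁻¹ a)) = cst A a from lp.ext (funext fun _ =>
      (hα.mul g g⁻¹ a).symm.trans (by rw [mul_inv_cancel, hα.one]; rfl))] at this
  have act : Act fun g => ((σ g).comp (Cen q (id : A → A)).subtype).codRestrict _ (m g) :=
    ⟨fun z => Subtype.ext (by
      obtain ⟨x, hx⟩ := hq.surj z
      show σ 1 z = z
      rw [← hx, hσ]
      exact congrArg q (lp.ext (funext fun n => hα.one (x n)))), fun g h z => Subtype.ext (by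
      obtain ⟨x, hx⟩ := hq.surj z
      show σ (g * h) z = σ g (σ h z)
      rw [← hx, hσ, hσ, hσ]
      exact congrArg q (lp.ext (funext fun n => hα.mul g h (x n))))⟩
  have no := nochar_fix (R := CF q (id : A → A) σ) hinf act (zcopy hω hq Δ hΔ)
    (StarSubalgebra.inclusion (inf_le_left : CF q (id : A → A) σ ≤ Cen q (id : A → A)))
    (StarSubalgebra.inclusion_injective _) (fun g r => Subtype.ext (r.2.2 g))
    fun x hx => ⟨⟨x, x.2, fun g => congrArg Subtype.val (hx g)⟩, rfl⟩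
  exact upgradeP (fun z => ∀ g, β g z = z) ι j hd
    (approxG hω hq hZ hf hσ (drop (cp_fix hω hq hα hσ) no) ι j hι hc hβ b1 b2) X Y ε hε

theorem main [Group G] [Countable G] (hG : ∀ s : Finset G, Finite (Subgroup.closure (s : Set G)))
    [Nontrivial A] [SeparableSpace A] [SeparableSpace Z]
    [IsSimpleRing Z] (hinf : ¬ FiniteDimensional ℂ Z) (hZ : DropLimit Z) (hf : HalfFlip Z)
    (hcc : CentralCopies Z) (ι : A →⋆ₐ[ℂ] T) (j : Z →⋆ₐ[ℂ] T) (hι : Function.Injective ι)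
    (hc : ∀ a d, Commute (ι a) (j d))
    (hd : Dense (StarAlgebra.adjoin ℂ (Set.range ι ∪ Set.range j) : Set T)) (e : A ≃⋆ₐ[ℂ] T)
    (α : G →* (A ≃⋆ₐ[ℂ] A)) (β : G →* (T ≃⋆ₐ[ℂ] T))
    (b1 : ∀ g a, β g (ι a) = ι (α g a)) (b2 : ∀ g d, β g (j d) = j d) :
    ∃ (Φ : A ≃⋆ₐ[ℂ] T) (u : G → T), (∀ g, u g ∈ unitary T) ∧
      (∀ g h, u (g * h) = u g * β g (u h)) ∧ ∀ g a, Φ (α g a) = u g * β g (Φ a) * star (u g) := by
  classical
  have := sep ι j hd
  obtain ⟨s, hs⟩ := exists_surjective_nat G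
  let H : ℕ → Subgroup G := fun n => Subgroup.closure (((range (n + 1)).image s : Finset G) : Set G)
  obtain ⟨Φ, w, h1, h2⟩ := intertwineP (fun n z => ∀ g : H n, β g z = z) ι hι fun n => by
    have : Finite (H n) := hG _
    have := Fintype.ofFinite (H n)
    exact approx_fin hinf hZ hf hcc ι j hι hc hd e (α := fun g : H n => (α g : A →⋆ₐ[ℂ] A))
      ⟨fun x => by show α 1 x = x; rw [map_one]; rfl,
        fun g h x => by show α (g * h) x = α g (α h x); rw [map_mul]; rfl⟩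
      (β := fun g : H n => (β g : T →⋆ₐ[ℂ] T))
      ⟨fun x => by show β 1 x = x; rw [map_one]; rfl,
        fun g h x => by show β (g * h) x = β g (β h x); rw [map_mul]; rfl⟩
      (fun g => b1 g) fun g => b2 g
  refine ⟨Φ, cocycle α β ι b1 (fun n z => ∀ g : H n, β g z = z) (fun g => ?_) Φ w h1 h2⟩
  obtain ⟨N, rfl⟩ := hs g
  exact ⟨N, fun n hn z hz => hz ⟨s N, Subgroup.subset_closure
    (mem_coe.2 (mem_image_of_mem _ (mem_range.2 (Nat.lt_succ_of_le hn))))⟩⟩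

end Vale.Agent.P095H
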