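import Vale.Agent.P095H.PartK
import Vale.Agent.P095H.PartY
import Vale.Agent.P095.PartAP
import Vale.Agent.P095.PartCP
import Vale.Agent.P095.PartIG
import Vale.Agent.P101.Glue

/-! Finite extensions. -/

namespace Vale.Agent.P095H

open Filter Topology Finset TopologicalSpace Vale.Agent.P101 Vale.Agent.P101.U2

variable {A E T Z : Type} [CStarAlgebra A] [CStarAlgebra E] [CStarAlgebra T] [CStarAlgebra Z]
  {G K : Type} {ω : Ultrafilter ℕ}

theorem zcopy_fix (hω : (ω : Filter ℕ) ≤ cofinite) [Nontrivial A] [SeparableSpace A]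
    {q : Linf A →⋆ₐ[ℂ] E} (hq : IsUlt ω q) [SeparableSpace Z] [Countable K]
    {s : K → A →⋆ₐ[ℂ] A} {σ : K → E →⋆ₐ[ℂ] E} (hσ : P095.Ind q s σ) (Δ : Z →⋆ₐ[ℂ] Linf A)
    (hΔ : ∀ d, q (Δ d) ∈ P095.Fix q (id : A → A) σ) (x : P095.Fix q (id : A → A) σ) :
    ∃ γ : Z →⋆ₐ[ℂ] P095.Fix q (id : A → A) σ, ∀ d, Commute (γ d) x := by
  obtain ⟨a, ha, ha'⟩ := exists_countable_dense A
  obtain ⟨y, hy⟩ := hq.surj x
  have h0 : ∀ k d, q (Z2.mapL (s k) (Δ d) - Δ d) = 0 := fun k d => by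
    rw [map_sub, ← hσ, (P095.mem_fix.1 (hΔ d)).2 k, sub_self]
  obtain ⟨m, hm⟩ := reindex hω hq
    (G := Set.range Δ ∪ ⋃ k, Set.range fun d => Z2.mapL (s k) (Δ d) - Δ d)
    ((isSeparable_range (hom_cont Δ)).union (IsSeparable.iUnion fun k => isSeparable_range
      (((hom_cont (Z2.mapL (s k))).comp (hom_cont Δ)).sub (hom_cont Δ))))
    (by
      rintro _ (⟨d, rfl⟩ | h)
      · exact (P095.mem_fix.1 (hΔ d)).1
      · obtain ⟨k, d, rfl⟩ := Set.mem_iUnion.1 h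
        show q (Z2.mapL (s k) (Δ d) - Δ d) ∈ _
        rw [h0]
        exact zero_mem _) ((ha.image (cst A)).insert y)
  have hR : ∀ d, q (rx m (Δ d)) ∈ P095.Fix q (id : A → A) σ := fun d => P095.mem_fix.2
    ⟨mem_cen.2 fun b => ha'.induction (P := fun b => Commute (q (rx m (Δ d))) (q (cst A b)))
      (fun b hb => (hm _ (Or.inl ⟨d, rfl⟩)).2 _ (Or.inr ⟨b, hb, rfl⟩))
      (isClosed_commute continuous_const ((hom_cont q).comp continuous_cst)) b, fun k => by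
    have := (hm _ (Or.inr (Set.mem_iUnion.2 ⟨k, d, rfl⟩))).1
    change ‖q (rx m (Z2.mapL (s k) (Δ d) - Δ d))‖ ≤ ‖q (Z2.mapL (s k) (Δ d) - Δ d)‖ at this
    rw [h0, norm_zero, norm_le_zero_iff, map_sub, map_sub, sub_eq_zero] at this
    rw [hσ]
    exact this⟩
  refine ⟨(q.comp ((rx m).comp Δ)).codRestrict _ hR, fun d => Subtype.ext ?_⟩
  have := (hm _ (Or.inl ⟨d, rfl⟩)).2 _ (Or.inl rfl)
  rw [hy] at this
  exact this.eq

theorem nochar_ext [Nontrivial A] {q : Linf A →⋆ₐ[ℂ] E} (hq : IsUlt ω q) [Group G]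
    [IsSimpleRing Z] (hinf : ¬ FiniteDimensional ℂ Z) {s : G → A →⋆ₐ[ℂ] A} (hs : Act s)
    {σ : G → E →⋆ₐ[ℂ] E} (hσ : P095.Ind q s σ) (N : Subgroup G)
    (hγ : ∀ x : P095.Fix q (id : A → A) fun n : N => σ n,
      ∃ γ : Z →⋆ₐ[ℂ] P095.Fix q (id : A → A) fun n : N => σ n, ∀ d, Commute (γ d) x)
    (W S : Finset G) (hN : ∀ g ∈ Subgroup.closure (W : Set G), ∀ n ∈ N, g * n * g⁻¹ ∈ N)
    (hS : ∀ g ∈ Subgroup.closure (W : Set G), ∃ t ∈ S, ∃ n ∈ N, ∃ u ∈ unitary A,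
      ∀ a, s g a = u * s (t * n) a * star u) :
    IsEmpty (P095.Fix q (id : A → A) (fun w : W => σ w) →⋆ₐ[ℂ] ℂ) := by
  have e1 : ∀ x, σ 1 x = x := fun x => by
    obtain ⟨x, rfl⟩ := hq.surj x
    rw [hσ]
    exact congrArg q (lp.ext (funext fun n => hs.one (x n)))
  have em : ∀ g h x, σ (g * h) x = σ g (σ h x) := fun g h x => by
    obtain ⟨x, rfl⟩ := hq.surj x
    rw [hσ, hσ, hσ]
    exact congrArg q (lp.ext (funext fun n => hs.mul g h (x n)))
  have cen : ∀ g, ∀ x ∈ Cen q (id : A → A), σ g x ∈ Cen q (id : A → A) := fun g x hx =>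
    mem_cen.2 fun a => by
      have := (mem_cen.1 hx (s g⁻¹ a)).map (σ g)
      rwa [hσ g (cst A _), show Z2.mapL (s g) (cst A (s g⁻¹ a)) = cst A a from lp.ext
        (funext fun _ => (hs.mul g g⁻¹ a).symm.trans (by rw [mul_inv_cancel, hs.one]; rfl))] at this
  obtain ⟨R, hR⟩ : ∃ R, R = P095.Fix q (id : A → A) fun n : N => σ n := ⟨_, rfl⟩
  have mR : ∀ x, x ∈ R ↔ x ∈ Cen q (id : A → A) ∧ ∀ n : N, σ n x = x := fun x => by
    rw [hR]; exact P095.mem_fix
  have : IsClosed (R : Set E) := by rw [hR]; infer_instance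
  let H := Subgroup.closure (W : Set G)
  have mem : ∀ (g : H) (x : R), σ g x ∈ R := fun g x => (mR _).2 ⟨cen _ _ ((mR _).1 x.2).1,
    fun n => by
      have h := ((mR _).1 x.2).2 ⟨_, hN _ (inv_mem g.2) n n.2⟩
      conv_rhs => rw [← h]
      rw [← em, ← em]
      congr 2
      group⟩
  let τ : H → R →ₐ[ℂ] R := fun g =>
    { toFun := fun x => ⟨σ g x, mem g x⟩
      map_one' := Subtype.ext (map_one (σ g))
      map_mul' := fun x y => Subtype.ext (map_mul (σ g) x.1 y.1)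
      map_zero' := Subtype.ext (map_zero (σ g))
      map_add' := fun x y => Subtype.ext (map_add (σ g) x.1 y.1)
      commutes' := fun c => Subtype.ext (AlgHomClass.commutes (σ g) c) }
  let ρ : H →* (R →ₐ[ℂ] R) :=
    { toFun := τ
      map_one' := AlgHom.ext fun x => Subtype.ext (e1 x)
      map_mul' := fun g h => AlgHom.ext fun x => Subtype.ext (em g h x) }
  have inn : ∀ g : H, ∃ t ∈ S, ∀ x : R, σ g x = σ t x := fun g => by
    obtain ⟨t, ht, n, hn, u, hu, h⟩ := hS g g.2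
    refine ⟨t, ht, fun x => ?_⟩
    obtain ⟨y, hy⟩ := hq.surj x
    have k1 : σ g x = q (cst A u) * σ (t * n) x * q (cst A (star u)) := by
      rw [← hy, hσ, hσ, ← map_mul, ← map_mul]
      exact congrArg q (lp.ext (funext fun n => h (y n)))
    have k2 : q (cst A u) * q (cst A (star u)) = 1 := by
      rw [← map_mul, ← map_one q]
      exact congrArg q (lp.ext (funext fun _ => hu.2))
    rw [k1, em, ((mR _).1 x.2).2 ⟨n, hn⟩, ← (mem_cen.1 (cen t x ((mR _).1 x.2).1) u).eq, mul_assoc,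
      k2, mul_one]
  let H' := ρ.toHomUnits.range
  have hf : (H' : Set (R →ₐ[ℂ] R)ˣ).Finite := by
    refine Set.Finite.of_finite_image (f := fun h : (R →ₐ[ℂ] R)ˣ => fun x : R => (h.1 x : E))
      ((S.finite_toSet.image fun t => fun x : R => σ t x).subset ?_) fun a _ b _ h =>
        Units.ext (AlgHom.ext fun x => Subtype.ext (congrFun h x))
    rintro _ ⟨_, ⟨g, rfl⟩, rfl⟩
    obtain ⟨t, ht, h⟩ := inn g
    exact ⟨t, ht, funext fun x => (h x).symm⟩
  have : Fintype H' := hf.fintype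
  let σ' : H' → R →⋆ₐ[ℂ] R := fun h =>
    { h.1.1 with
      map_star' := fun x => by
        obtain ⟨_, g, rfl⟩ := h
        exact Subtype.ext (map_star (σ g) x.1) }
  have hE := nochar_fix (R := Fix σ') (σ := σ') hinf ⟨fun _ => rfl, fun _ _ _ => rfl⟩
    (by subst hR; exact hγ) (Fix σ').subtype Subtype.val_injective (fun g r => r.2 g)
    fun x hx => ⟨⟨x, hx⟩, rfl⟩
  refine ⟨fun χ => hE.false (χ.comp ((R.subtype.comp (Fix σ').subtype).codRestrict _ fun x =>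
    P095.mem_fix.2 ⟨((mR _).1 x.1.2).1, fun w => ?_⟩))⟩
  exact congrArg Subtype.val
    (x.2 ⟨ρ.toHomUnits ⟨w, Subgroup.subset_closure w.2⟩, ⟨w, Subgroup.subset_closure w.2⟩, rfl⟩)

theorem main_ext [Group G] [Countable G] [Nontrivial A] [SeparableSpace A] [SeparableSpace Z]
    [IsSimpleRing Z] (hinf : ¬ FiniteDimensional ℂ Z) (hZ : DropLimit Z) (hf : HalfFlip Z)
    (hcc : CentralCopies Z) (ι : A →⋆ₐ[ℂ] T) (j : Z →⋆ₐ[ℂ] T) (hι : Function.Injective ι)
    (hc : ∀ a d, Commute (ι a) (j d))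
    (hd : Dense (StarAlgebra.adjoin ℂ (Set.range ι ∪ Set.range j) : Set T))
    (α : G →* Aut A) (β : G →* Aut T)
    (b1 : ∀ g a, β g (ι a) = ι (α g a)) (b2 : ∀ g d, β g (j d) = j d)
    (hG : ∀ W : Finset G, ∃ (N : Subgroup G) (S : Finset G),
      CocycleConj (α.comp N.subtype) (β.comp N.subtype) ∧
      ∀ g ∈ Subgroup.closure (W : Set G), (∀ n ∈ N, g * n * g⁻¹ ∈ N) ∧
        ∃ t ∈ S, ∃ n ∈ N, ∃ u ∈ unitary A, ∀ a, α g a = u * α (t * n) a * star u) :
    CocycleConj α β := by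
  have hω : ((hyperfilter ℕ : Ultrafilter ℕ) : Filter ℕ) ≤ cofinite := hyperfilter_le_cofinite
  obtain ⟨E, _, _, q, hq⟩ := exists_ult (A := A) (hyperfilter ℕ)
  obtain ⟨σ, hσ⟩ := P095.exists_ind hq fun g : G => (α g : A →⋆ₐ[ℂ] A)
  refine P095.intertwineG ι j hι hd α β b1 fun W X Y ε hε => ?_
  obtain ⟨N, S, ⟨e, u, hu, -, he⟩, hS⟩ := hG W
  obtain ⟨Δ, hΔ, hΔ'⟩ := delta hω hq hcc ι j hc hd e
  have h1 : ∀ d, q (Δ d) ∈ P095.Fix q (id : A → A) fun n : N => σ n := fun d =>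
    P095.mem_fix.2 ⟨hΔ d, fun n => by
      have k1 : σ n (q (Δ d)) =
          q (cst A (e.symm (u n))) * q (Δ d) * q (cst A (e.symm (star (u n)))) := by
        rw [hσ, ← map_mul, ← map_mul]
        refine congrArg q (lp.ext (funext fun m => e.injective ?_))
        obtain ⟨d', hd'⟩ := hΔ' d m
        show e (α n (Δ d m)) = e (e.symm (u n) * Δ d m * e.symm (star (u n)))
        rw [map_mul, map_mul, e.apply_symm_apply, e.apply_symm_apply]
        refine (he n _).trans ?_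
        rw [hd', e.apply_symm_apply]
        exact congrArg (fun y => u n * y * star (u n)) (b2 n d')
      have k2 : q (cst A (e.symm (u n))) * q (cst A (e.symm (star (u n)))) = 1 := by
        rw [← map_mul, ← map_one q]
        refine congrArg q (lp.ext (funext fun _ => ?_))
        show e.symm (u n) * e.symm (star (u n)) = 1
        rw [← map_mul, (hu n).2, map_one]
      rw [k1, ← (mem_cen.1 (hΔ d) _).eq, mul_assoc, k2, mul_one]⟩
  have no := nochar_ext hq hinf (s := fun g : G => (α g : A →⋆ₐ[ℂ] A))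
    ⟨fun x => by show α 1 x = x; rw [map_one]; rfl,
      fun g h x => by show α (g * h) x = α g (α h x); rw [map_mul]; rfl⟩ hσ N
    (zcopy_fix hω hq (s := fun n : N => (α n : A →⋆ₐ[ℂ] A)) (fun n x => hσ n x) Δ h1) W S
    (fun g hg => (hS g hg).1) fun g hg => (hS g hg).2
  have hσW : P095.Ind q (fun w : W => (α w : A →⋆ₐ[ℂ] A)) fun w : W => σ w := fun w x => hσ w x
  obtain ⟨z, hz, a1, a2⟩ := P095.approxG hω hq hZ hf hσW (drop (P095.cp_fix hω hq hσW) no) ι j hι hc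
    (fun g : W => (β g : T →⋆ₐ[ℂ] T)) (fun g a => b1 g a) (fun g d => b2 g d) X Y ε hε
  exact ⟨z, hz, fun g hg => a1 ⟨g, hg⟩, a2⟩

end Vale.Agent.P095H
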