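import Vale.Agent.P095H.PartN4
import Vale.Agent.P095H.DefsMc
import Vale.Agent.P095G.PartSI1

/-! Equivariant uniform McDuff property for algebras without unit. -/

namespace Vale.Agent.P095H

open Filter Topology Finset Vale.Agent.P101 Vale.Agent.P095 Vale.Agent.P095G TopologicalSpace U2

variable {W Z : Type} [CStarAlgebra W] [CStarAlgebra Z]
  {A T : Type} [NonUnitalCStarAlgebra A] [NonUnitalCStarAlgebra T]
  {G : Type} [Group G] {ω : Ultrafilter ℕ}

theorem lift_con {D E : Type} [CStarAlgebra D] [CStarAlgebra E] (q : D →⋆ₐ[ℂ] E)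
    (hq : Function.Surjective q) {e : E} (he : ‖e‖ ≤ 1) : ∃ y, q y = e ∧ ‖y‖ ≤ 1 := by
  obtain ⟨x, rfl⟩ := hq e
  have hp : ∀ t : ℝ, 0 < max 1 t := fun t => lt_max_of_lt_left one_pos
  have c1 : Continuous fun t : ℝ => 1 / √(max 1 t) :=
    continuous_const.div (by fun_prop) fun t => (Real.sqrt_pos.2 (hp t)).ne'
  have ha : IsSelfAdjoint (star x * x) := IsSelfAdjoint.star_mul_self x
  have hb : IsSelfAdjoint (star (q x) * q x) := IsSelfAdjoint.star_mul_self _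
  refine ⟨x * cfc (fun t : ℝ => 1 / √(max 1 t)) (star x * x), ?_, ?_⟩
  · rw [map_mul, StarAlgHom.map_cfc q _ _ c1.continuousOn (hom_cont q) ha (ha.map q), map_mul,
      map_star]
    have : cfc (fun t : ℝ => 1 / √(max 1 t)) (star (q x) * q x) = 1 := by
      rw [← cfc_const_one ℝ (star (q x) * q x)]
      refine cfc_congr fun t ht => ?_
      have h1 := norm_apply_le_norm_cfc (fun s : ℝ => s) (star (q x) * q x) ht
      rw [cfc_id' ℝ _ hb, CStarRing.norm_star_mul_self] at h1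
      have h2 : t ≤ 1 := (le_abs_self t).trans (h1.trans (mul_le_one₀ he (norm_nonneg _) he))
      show 1 / √(max 1 t) = 1
      rw [max_eq_left h2, Real.sqrt_one, div_one]
    rw [this, mul_one]
  · have hg : IsSelfAdjoint (cfc (fun t : ℝ => 1 / √(max 1 t)) (star x * x)) := cfc_predicate _ _
    obtain ⟨g, hgd⟩ : ∃ g, g = cfc (fun t : ℝ => 1 / √(max 1 t)) (star x * x) := ⟨_, rfl⟩
    have e1 : g * (star x * x) * g =
        cfc (fun t : ℝ => 1 / √(max 1 t) * t * (1 / √(max 1 t))) (star x * x) := by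
      rw [cfc_mul _ _ _ (by fun_prop) c1.continuousOn, cfc_mul _ _ _ c1.continuousOn,
        cfc_id' ℝ (star x * x), ← hgd]
    rw [← hgd] at hg ⊢
    have e2 : ‖x * g‖ * ‖x * g‖ ≤ 1 := by
      rw [← CStarRing.norm_star_mul_self, star_mul, hg.star_eq,
        show g * star x * (x * g) = g * (star x * x) * g by simp only [mul_assoc], e1]
      refine norm_cfc_le zero_le_one fun t ht => ?_
      letI := CStarAlgebra.spectralOrder D
      haveI := CStarAlgebra.spectralOrderedRing D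
      have t0 : 0 ≤ t := spectrum_nonneg_of_nonneg (star_mul_self_nonneg x) ht
      have s := Real.mul_self_sqrt (hp t).le
      have s0 := Real.sqrt_pos.2 (hp t)
      have e3 : 1 / √(max 1 t) * t * (1 / √(max 1 t)) = t / max 1 t := by
        conv_rhs => rw [← s]
        field_simp
      rw [e3, Real.norm_of_nonneg (div_nonneg t0 (hp t).le), div_le_one (hp t)]
      exact le_max_right _ _
    nlinarith [norm_nonneg (x * g)]

theorem mainN5 (hω : (ω : Filter ℕ) ≤ cofinite) [SeparableSpace A] [SeparableSpace Z]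
    (hs : SelfCen Z) (hn : IsEmpty (Z →⋆ₐ[ℂ] ℂ))
    (ι : A →⋆ₙₐ[ℂ] W) (j : Z →⋆ₐ[ℂ] W) (κ : T →⋆ₙₐ[ℂ] W)
    (hκ : Function.Injective κ) (hc : ∀ a d, Commute (ι a) (j d))
    (hT : Set.range κ = closure (Submodule.span ℂ {w | ∃ a d, w = ι a * j d} : Set W))
    (hid : ∀ w t, ∃ t', κ t * w = κ t') (hst : Nonempty (A ≃⋆ₐ[ℂ] T)) [Countable G]
    (hA : Vale.Agent.P184.IsAmenable G)
    (hG : ∀ (F : Type) [CStarAlgebra F] (σ : G →* (F ≃⋆ₐ[ℂ] F)), CpG σ → Cp F →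
      IsEmpty (F →⋆ₐ[ℂ] ℂ) → McD σ)
    (α : G →* (A ≃⋆ₐ[ℂ] A)) (K : Finset G) (ε : ℝ) (hε : 0 < ε) :
    McDF ω (Set.range (Unitization.inr : A → Unitization ℂ A)) (fun g => uext (α g)) K ε := by
  obtain ⟨φ⟩ := hst
  obtain ⟨γ, hγ'⟩ := unit_act α
  have hγ : ∀ g (a : A), γ g a = (α g a : A) := fun g a =>
    (hγ' g a).trans (Unitization.starMap_inr _ _)
  have : SeparableSpace (Unitization ℂ A) :=
    (Unitization.uniformEquivProd (𝕜 := ℂ) (A := A)).symm.surjective.denseRange.separableSpace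
      (Unitization.uniformEquivProd (𝕜 := ℂ) (A := A)).symm.continuous
  obtain ⟨E, _, _, q, hq⟩ := exists_ult (A := Unitization ℂ A) ω
  obtain ⟨Q, _, π, hπ⟩ := exists_pres (Cen q (id : Unitization ℂ A → Unitization ℂ A))
    (fun a : A => q (cst _ (a : Unitization ℂ A))) fun x hx a => mem_cen.1 hx _
  have hπ' : Pres _ (fun a : Set.range (Unitization.inr : A → Unitization ℂ A) => q (cst _ a)) π :=
    ⟨hπ.surj, fun x => (hπ.ker x).trans ⟨fun h => by rintro ⟨_, a, rfl⟩; exact h a,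
      fun h a => h ⟨_, a, rfl⟩⟩, hπ.nrm⟩
  obtain ⟨σ, hσ⟩ := actQ hq γ (by rintro g _ ⟨a, rfl⟩; exact ⟨_, (hγ g a).symm⟩) hπ'
  obtain ⟨c1, c2⟩ := cpg_of_one (σ := σ) fun D _ _ β i hi S hS => oneQ hω hq γ hπ hσ hi S hS
  have le : Fix q (id : Unitization ℂ A → Unitization ℂ A) (fun k : Empty => k.elim) ≤
      Cen q (id : Unitization ℂ A → Unitization ℂ A) := fun x hx => (mem_fix.1 hx).1
  have c3 : IsEmpty (Q →⋆ₐ[ℂ] ℂ) := cen_nocharN hω hq hs hn ι j κ hκ hc hT hid φ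
    (π0 := π.comp (StarSubalgebra.inclusion le)) ⟨fun z => by
      obtain ⟨x, rfl⟩ := hπ.surj z
      exact ⟨⟨x.1, mem_fix.2 ⟨x.2, fun k => k.elim⟩⟩, rfl⟩, fun x => hπ.ker _, fun x δ hδ => by
      obtain ⟨m, m1, m2⟩ := hπ.nrm (StarSubalgebra.inclusion le x) δ hδ
      exact ⟨⟨m.1, mem_fix.2 ⟨m.2, fun k => k.elim⟩⟩, m1, m2⟩⟩
  obtain ⟨D, _, β, i, e, h1, h2, h5, h4⟩ := SI.mcN hA (hG Q σ c1 c2 c3) K _ (half_pos hε)
  obtain ⟨ψ, p1, p2, p3⟩ := psi hq
  let P : Central ω (Unitization ℂ A) →⋆ₐ[ℂ] Q := π.comp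
    ((ψ.comp (Central ω (Unitization ℂ A)).subtype).codRestrict _ fun y => (p3 y.1).1 y.2)
  have P0 : ∀ x, P x = 0 ↔ Ann ω A x := fun x => (hπ.ker _).trans (forall_congr' fun a => by
    rw [← p2, ← map_eq_zero_iff ψ p1, map_mul]
    rfl)
  have Ps : Function.Surjective P := fun z => by
    obtain ⟨⟨x, hx⟩, rfl⟩ := hπ.surj z
    obtain ⟨x, rfl⟩ := hq.surj x
    exact ⟨⟨mk ω _ x, (p3 _).2 (by rwa [p2])⟩, congrArg π (Subtype.ext (p2 x))⟩
  obtain ⟨z, hz, hz'⟩ := lift_con π hπ.surj ((NonUnitalStarAlgHom.norm_apply_le i e).trans h2)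
  obtain ⟨y, hy, hy'⟩ := lift_con q hq.surj (e := z.1) hz'
  have m1 : q y ∈ Cen q (id : Unitization ℂ A → Unitization ℂ A) := by
    rw [hy]; exact z.2
  let e' : Central ω (Unitization ℂ A) := ⟨mk ω _ y, (p3 _).2 (by rw [p2]; exact m1)⟩
  have e0 : π ⟨_, m1⟩ = i e := (congrArg π (Subtype.ext hy)).trans hz
  have e1 : P e' = i e := (congrArg π (Subtype.ext (p2 _))).trans e0
  refine ⟨y, fun m => (U1.le y m).trans hy', cseq e'.2, fun g hg => ?_, fun ρ0 hρ0 => ?_⟩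
  · rintro _ ⟨a, rfl⟩ ha
    obtain ⟨m2, m3⟩ := hσ g _ m1
    have b1 := hπ.norm_mul (⟨_, m2⟩ - ⟨_, m1⟩) a
    rw [map_sub, ← m3, e0, ← h1, ← map_sub] at b1
    have b2 : ‖i (β g e - e)‖ ≤ ε / 2 := (NonUnitalStarAlgHom.norm_apply_le i _).trans (h5 g hg)
    have b3 : ‖q (cst _ (a : Unitization ℂ A))‖ ≤ 1 :=
      (NonUnitalStarAlgHom.norm_apply_le (q.comp (Z2.cstH _)) (a : Unitization ℂ A)).trans ha
    have b4 : ‖q ((Z2.mapL (γ g : Unitization ℂ A →⋆ₐ[ℂ] Unitization ℂ A) y - y) *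
        cst _ (a : Unitization ℂ A))‖ < ε := by
      rw [map_mul, map_sub]
      refine b1.trans_lt ((mul_le_mul b2 b3 (norm_nonneg _) (by positivity)).trans_lt ?_)
      linarith
    refine (hq.ev2 b4).mono fun m hm => ?_
    show ‖(Unitization.starMap (α g : A →⋆ₙₐ[ℂ] A) (y m) - y m) * a‖ < ε
    rw [← hγ']
    exact hm
  obtain ⟨ρ, hρ, hρ'⟩ := trs hρ0
  obtain ⟨s, hs'⟩ := P.toAlgHom.toLinearMap.exists_rightInverse_of_surjective
    (LinearMap.range_eq_top.2 Ps)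
  have r1 : ∀ x, (ρ ∘ₗ s) (P x) = ρ x := fun x => by
    rw [← sub_eq_zero, LinearMap.comp_apply, ← map_sub]
    refine hρ.ann _ ((P0 _).1 ?_)
    rw [map_sub, sub_eq_zero]
    exact LinearMap.congr_fun hs' (P x)
  have r2 : Tr (ρ ∘ₗ s) := ⟨by rw [← map_one P, r1, hρ.one], fun x => by
    obtain ⟨x, rfl⟩ := Ps x
    rw [← map_star, ← map_mul, r1]
    exact hρ.pos x, fun x w => by
    obtain ⟨x, rfl⟩ := Ps x
    obtain ⟨w, rfl⟩ := Ps w
    rw [← map_mul, ← map_mul, r1, r1, hρ.comm]⟩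
  obtain ⟨k1, k2⟩ := h4 _ (r2.comp i)
  rw [← SI.sq_eq] at k2
  constructor
  · rw [← hρ' (star (e' * e') * (e' * e')) _ rfl, ← r1]
    simp only [map_mul, map_star, e1]
    have : ((ρ ∘ₗ s) (i (star (e * e) * (e * e)))).re ≤ ε / 2 := k1
    simp only [map_mul, map_star] at this
    linarith
  · have e2 : ((1 - star e' * e' - e' * star e') ^ 2).1 =
        mk ω _ ((1 - star y * y - y * star y) ^ 2) := by
      rw [sq, sq]
      rfl
    rw [← hρ' _ _ e2, ← r1]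
    simp only [map_pow, map_sub, map_one, map_mul, map_star, e1]
    have : ((ρ ∘ₗ s) (i ((1 - star e * e - e * star e) ^ 2))).re ≤ ε / 2 := k2
    simp only [map_pow, map_sub, map_one, map_mul, map_star] at this
    linarith

end Vale.Agent.P095H
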