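import Vale.Agent.P095G.PartCPG
import Vale.Agent.P095.NCP

/-! Equivariant commuting copies in the quotient by the annihilator of an invariant set. -/

namespace Vale.Agent.P095H

open Filter Topology Finset Vale.Agent.P101 Vale.Agent.P095 Vale.Agent.P095G TopologicalSpace U2

variable {A D E Q : Type} [CStarAlgebra A] [CStarAlgebra D] [CStarAlgebra E] [CStarAlgebra Q]
  {G : Type} [Group G] {ω : Ultrafilter ℕ}

lemma actQ [Nontrivial A] {q : Linf A →⋆ₐ[ℂ] E} (hq : IsUlt ω q) (α : G →* (A ≃⋆ₐ[ℂ] A))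
    {J : Set A} (hJ : ∀ g, ∀ a ∈ J, α g a ∈ J) {π : Cen q (id : A → A) →⋆ₐ[ℂ] Q}
    (hπ : Pres _ (fun a : J => q (cst A a)) π) :
    ∃ σ : G →* (Q ≃⋆ₐ[ℂ] Q), ∀ g x (hx : q x ∈ Cen q (id : A → A)),
      ∃ hx' : q (Z2.mapL (α g : A →⋆ₐ[ℂ] A) x) ∈ Cen q (id : A → A),
        σ g (π ⟨q x, hx⟩) = π ⟨_, hx'⟩ := by
  obtain ⟨s, hs⟩ := CPG.act hq α
  obtain ⟨Φ, hΦ⟩ := exists_ind hq fun g : G => (α g : A →⋆ₐ[ℂ] A)
  have h0 : ∀ g z, π z = 0 →
      (π.comp (s g : Cen q (id : A → A) →⋆ₐ[ℂ] Cen q (id : A → A))) z = 0 := fun g z hz =>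
    (hπ.ker _).2 fun a => by
      obtain ⟨z, hz'⟩ := z
      obtain ⟨x, rfl⟩ := hq.surj z
      have h1 := congrArg (Φ g) ((hπ.ker _).1 hz ⟨α g⁻¹ a, hJ _ _ a.2⟩)
      have e : q (cst A a) = Φ g (q (cst A (α g⁻¹ a))) := by
        rw [hΦ]
        exact congrArg q (lp.ext (funext fun n => by
          change a.1 = (α g * α g⁻¹) a
          rw [← map_mul, mul_inv_cancel, map_one]; rfl))
      rw [map_mul, map_zero, hΦ, ← e] at h1
      change (s g ⟨q x, hz'⟩ : E) * _ = 0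
      rw [hs]
      exact h1
  choose t ht using fun g => Z2.lift_surj π hπ.surj _ (h0 g)
  have ht' : ∀ g z, t g (π z) = π (s g z) := ht
  have hm : ∀ g h z, t (g * h) z = t g (t h z) := fun g h z => by
    obtain ⟨z, rfl⟩ := hπ.surj z
    rw [ht', ht', ht', map_mul s]
    rfl
  have hi : ∀ g h, g * h = 1 → ∀ z, t g (t h z) = z := fun g h e z => by
    rw [← hm, e]
    obtain ⟨z, rfl⟩ := hπ.surj z
    rw [ht', map_one s]
    rfl
  refine ⟨MonoidHom.mk' (fun g => StarAlgEquiv.ofStarAlgHom (t g) (t g⁻¹)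
    (StarAlgHom.ext (hi _ _ (inv_mul_cancel g))) (StarAlgHom.ext (hi _ _ (mul_inv_cancel g))))
    fun g h => StarAlgEquiv.ext fun z => hm g h z, fun g x hx => ?_⟩
  refine ⟨by rw [← hs g x hx]; exact (s g _).2, (ht' g _).trans (congrArg π (Subtype.ext ?_))⟩
  exact hs g x hx

lemma oneQ (hω : (ω : Filter ℕ) ≤ cofinite) [Nontrivial A] [SeparableSpace A] [Countable G]
    {q : Linf A →⋆ₐ[ℂ] E} (hq : IsUlt ω q) (α : G →* (A ≃⋆ₐ[ℂ] A)) {I : Type} {c : I → A}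
    {π : Cen q (id : A → A) →⋆ₐ[ℂ] Q} (hπ : Pres _ (fun a => q (cst A (c a))) π)
    {σ : G →* (Q ≃⋆ₐ[ℂ] Q)} (hσ : ∀ g x (hx : q x ∈ Cen q (id : A → A)),
      ∃ hx' : q (Z2.mapL (α g : A →⋆ₐ[ℂ] A) x) ∈ Cen q (id : A → A),
        σ g (π ⟨q x, hx⟩) = π ⟨_, hx'⟩)
    [SeparableSpace D] {β : G →* (D ≃⋆ₐ[ℂ] D)} {ι : D →⋆ₐ[ℂ] Q} (hι : Eqv β σ ι)
    (S : Set Q) (hS : IsSeparable S) :
    ∃ r : D →⋆ₐ[ℂ] Q, Eqv β σ r ∧ ∀ d, ∀ s ∈ S, Commute (r d) s := by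
  choose lift hlift using hq.surj
  choose pre hpre using hπ.surj
  obtain ⟨C, hC, hC'⟩ := exists_countable_dense D
  have := hC.to_subtype
  have hx : ∀ d : D, q (lift (pre (ι d)).1) ∈ Cen q (id : A → A) := fun d => by
    rw [hlift]; exact (pre (ι d)).2
  have hx' : ∀ d : D, π ⟨_, hx d⟩ = ι d := fun d =>
    (congrArg π (Subtype.ext (hlift _))).trans (hpre _)
  set T : Set (Linf A) := Set.range (fun c : C => lift (pre (ι c.1)).1) ∪
    Set.range fun p : G × C => Z2.mapL (α p.1 : A →⋆ₐ[ℂ] A) (lift (pre (ι p.2.1)).1) with hT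
  set H : StarSubalgebra ℂ (Linf A) := StarAlgebra.adjoin ℂ T with hH
  have hHs : IsSeparable (H : Set (Linf A)) :=
    sep_adjoin ((Set.countable_range _).union (Set.countable_range _))
  have hc : ∀ x ∈ H, q x ∈ Cen q (id : A → A) := by
    have : H ≤ (Cen q (id : A → A)).comap q := StarAlgebra.adjoin_le (by
      rintro _ (⟨c, rfl⟩ | ⟨p, rfl⟩)
      · exact hx c.1
      · exact (hσ p.1 _ (hx p.2.1)).1)
    exact fun x hx => this hx
  let π0 : H →⋆ₐ[ℂ] Cen q (id : A → A) :=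
    (q.comp H.subtype).codRestrict _ fun x => hc x.1 x.2
  let D1 : StarSubalgebra ℂ (Cen q (id : A → A)) := π0.range.topologicalClosure
  have hD : IsClosed (D1 : Set (Cen q (id : A → A))) :=
    StarSubalgebra.isClosed_topologicalClosure _
  let π1 : H →⋆ₐ[ℂ] D1 := π0.codRestrict _ fun x =>
    StarSubalgebra.le_topologicalClosure _ ⟨x, rfl⟩
  have hπ1 : DenseRange π1 := by
    rw [DenseRange, Subtype.dense_iff]
    intro z hz
    refine closure_mono ?_ hz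
    rintro _ ⟨x, rfl⟩
    exact ⟨π1 x, ⟨x, rfl⟩, rfl⟩
  have m1 : ∀ c : C, lift (pre (ι c.1)).1 ∈ H := fun c =>
    StarAlgebra.subset_adjoin _ _ (Or.inl ⟨c, rfl⟩)
  have m2 : ∀ g (c : C), Z2.mapL (α g : A →⋆ₐ[ℂ] A) (lift (pre (ι c.1)).1) ∈ H := fun g c =>
    StarAlgebra.subset_adjoin _ _ (Or.inr ⟨(g, c), rfl⟩)
  let ψ : D1 →⋆ₐ[ℂ] Q := π.comp D1.subtype
  obtain ⟨D', _, p, p1, p2, -⟩ := quot (RingHom.ker ψ)
    (isClosed_eq (hom_cont ψ) continuous_const)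
  obtain ⟨e, he⟩ := Z2.lift_surj p p1 ψ fun x hx => (p2 x).1 hx
  have ei : Function.Injective e := by
    rw [injective_iff_map_eq_zero]
    intro x hx
    obtain ⟨y, rfl⟩ := p1 x
    exact (p2 y).2 (by rwa [he] at hx)
  have hι1 : ∀ d, ι d ∈ e.range := fun d =>
    hC'.induction (P := fun d => ι d ∈ Set.range e)
      (fun c hc => ⟨p (π1 ⟨_, m1 ⟨c, hc⟩⟩), (he _).trans (hx' c)⟩)
      ((NonUnitalStarAlgHom.isometry e ei).isClosedEmbedding.isClosed_range.preimage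
        (hom_cont ι)) d
  let η : D →⋆ₐ[ℂ] D' := ((StarAlgEquiv.ofInjective e ei).symm : e.range →⋆ₐ[ℂ] D').comp
    (ι.codRestrict e.range hι1)
  have hη : ∀ d, e (η d) = ι d := fun d =>
    congrArg Subtype.val ((StarAlgEquiv.ofInjective e ei).apply_symm_apply ⟨ι d, hι1 d⟩)
  obtain ⟨S0, hS0S, hS0, hSS0⟩ := hS.exists_countable_dense_subset
  obtain ⟨a, ha, ha'⟩ := exists_countable_dense A
  obtain ⟨m, hm, hm'⟩ := NCP.reindex hω hq hHs hc
    (G' := (fun p : Linf A × A => p.1 * cst A p.2) '' ((H : Set (Linf A)) ×ˢ Set.univ))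
    ((hHs.prod (IsSeparable.of_separableSpace _)).image
      (continuous_fst.mul (continuous_cst.comp continuous_snd)))
    ((hS0.image fun s => lift (pre s).1).union (ha.image (cst A)))
  have hR : ∀ x : H, q (rx m x.1) ∈ Cen q (id : A → A) := fun x => mem_cen.2 fun b =>
    ha'.induction (P := fun b => Commute (q (rx m x.1)) (q (cst A b)))
      (fun b hb => hm' x.1 x.2 _ (Or.inr ⟨b, hb, rfl⟩))
      (isClosed_commute continuous_const ((hom_cont q).comp continuous_cst)) b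
  have hn : ∀ (x : H) (b : A), ‖q (rx m x.1) * q (cst A b)‖ ≤ ‖q x.1 * q (cst A b)‖ := fun x b => by
    rw [← map_mul, ← map_mul]
    exact hm _ ⟨(x.1, b), ⟨x.2, trivial⟩, rfl⟩
  obtain ⟨ρ, hρ⟩ := extend_hom π1 hπ1
    ((q.comp ((rx m).comp H.subtype)).codRestrict (Cen q (id : A → A)) hR) fun x => by
      have := hn x 1
      rwa [show cst A 1 = 1 from rfl, map_one, mul_one, mul_one] at this
  have hn' : ∀ (d : D1) (b : A), ‖(ρ d).1 * q (cst A b)‖ ≤ ‖d.1.1 * q (cst A b)‖ := fun d b => by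
    refine hπ1.induction_on (p := fun d => ‖(ρ d).1 * q (cst A b)‖ ≤ ‖d.1.1 * q (cst A b)‖) d
      (isClosed_le ((continuous_subtype_val.comp (hom_cont ρ)).mul continuous_const).norm
        ((continuous_subtype_val.comp continuous_subtype_val).mul continuous_const).norm)
      fun x => ?_
    rw [hρ]
    exact hn x b
  obtain ⟨r, hr⟩ := Z2.lift_surj p p1 (π.comp ρ) fun x hx => (hπ.ker _).2 fun a => by
    have h := hn' x (c a)
    rwa [(hπ.ker x.1).1 ((p2 x).1 hx) a, norm_zero, norm_le_zero_iff] at h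
  have key : ∀ d (x : H), ι d = π ⟨q x.1, hc x.1 x.2⟩ → (r.comp η) d = π ⟨_, hR x⟩ :=
    fun d x h => by
      have h1 : η d = p (π1 x) := ei ((hη d).trans (h.trans (he (π1 x)).symm))
      change r (η d) = _
      rw [h1, hr]
      exact congrArg π (hρ x)
  refine ⟨r.comp η, fun g d => ?_, fun d s hs => ?_⟩
  · refine hC'.induction (P := fun d => (r.comp η) (β g d) = σ g ((r.comp η) d)) (fun c hc => ?_)
      (isClosed_eq ((hom_cont (r.comp η)).comp (hom_cont (β g : D →⋆ₐ[ℂ] D)))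
        ((hom_cont (σ g : Q →⋆ₐ[ℂ] Q)).comp (hom_cont (r.comp η)))) d
    rw [key c ⟨_, m1 ⟨c, hc⟩⟩ (hx' c).symm, key (β g c) ⟨_, m2 g ⟨c, hc⟩⟩
      ((hι g c).trans ((congrArg (σ g) (hx' c).symm).trans (hσ g _ (hx c)).2))]
    exact (hσ g _ (hR ⟨_, m1 ⟨c, hc⟩⟩)).2.symm
  change Commute (r (η d)) s
  obtain ⟨y, hy⟩ := p1 (η d)
  rw [← hy, hr]
  refine hπ1.induction_on (p := fun d => Commute ((π.comp ρ) d) s) y
    (isClosed_commute (hom_cont (π.comp ρ)) continuous_const) fun x => ?_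
  refine (isClosed_commute (f := fun _ => (π.comp ρ) (π1 x)) (g := id) continuous_const
    continuous_id).closure_subset_iff.2 (fun s hs => ?_) (hSS0 hs)
  have := hm' x.1 x.2 _ (Or.inl ⟨s, hs, rfl⟩)
  rw [hlift] at this
  change Commute (π (ρ (π1 x))) s
  rw [hρ, ← hpre s]
  exact Commute.map (Subtype.ext this.eq) π

lemma cpg_of_one [Countable G] {σ : G →* (Q ≃⋆ₐ[ℂ] Q)}
    (h : ∀ (D : Type) [CStarAlgebra D] [SeparableSpace D] (β : G →* (D ≃⋆ₐ[ℂ] D))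
      (ι : D →⋆ₐ[ℂ] Q), Eqv β σ ι → ∀ S : Set Q, IsSeparable S →
        ∃ r : D →⋆ₐ[ℂ] Q, Eqv β σ r ∧ ∀ d, ∀ s ∈ S, Commute (r d) s) : CpG σ ∧ Cp Q := by
  refine ⟨fun D _ _ β ι hι m => ?_, fun T hT => ?_⟩
  · obtain ⟨θ, h1, h2⟩ := CPG.copies (Eqv β σ) (h D β ι hι) (Fin m)
    obtain ⟨E', _, _, γ, κ, k1, k2, k3⟩ := sub σ (T := ⋃ j, Set.range (θ j))
      (IsSeparable.iUnion fun j => isSeparable_range (hom_cont (θ j)))
    let η : Fin m → D →⋆ₐ[ℂ] E' := fun j =>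
      ((StarAlgEquiv.ofInjective κ k2).symm : κ.range →⋆ₐ[ℂ] E').comp
        ((θ j).codRestrict κ.range fun d => k3 (Set.mem_iUnion.2 ⟨j, d, rfl⟩))
    have hη : ∀ j d, κ (η j d) = θ j d := fun j d =>
      congrArg Subtype.val ((StarAlgEquiv.ofInjective κ k2).apply_symm_apply
        ⟨θ j d, k3 (Set.mem_iUnion.2 ⟨j, d, rfl⟩)⟩)
    refine ⟨E', inferInstance, inferInstance, γ, κ, η, k1, fun j g d => k2 ?_,
      fun i j hij x y => k2 ?_⟩
    · rw [k1, hη, hη, h1 j]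
    · rw [map_mul, map_mul, hη, hη]
      exact h2 i j hij x y
  · obtain ⟨D, _, _, β, ι, k1, k2, k3⟩ := sub σ hT.isSeparable
    exact ⟨D, inferInstance, ι, k2, k3, U2.copies fun S hS =>
      (h D β ι k1 S hS).imp fun r hr => hr.2⟩

end Vale.Agent.P095H
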