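import Vale.Agent.P095H.PartN1
import Vale.Agent.P095H.DefsN
import Vale.Agent.P095G.PartFIN
import Vale.Agent.P095.NCN
import Vale.Agent.P101.Glue

/-! Equivariant property Gamma for algebras without unit. -/

namespace Vale.Agent.P095H

open Filter Topology Finset Vale.Agent.P101 Vale.Agent.P095 Vale.Agent.P095G TopologicalSpace U2

variable {B E W Z : Type} [CStarAlgebra B] [CStarAlgebra E] [CStarAlgebra W] [CStarAlgebra Z]
  {A T : Type} [NonUnitalCStarAlgebra A] [NonUnitalCStarAlgebra T]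
  {G : Type} [Group G] {ω : Ultrafilter ℕ}

lemma psi [Nontrivial B] {q : Linf B →⋆ₐ[ℂ] E} (hq : IsUlt ω q) :
    ∃ ψ : Ult ω B →⋆ₐ[ℂ] E, Function.Injective ψ ∧ (∀ x, ψ (mk ω B x) = q x) ∧
      ∀ y, y ∈ Central ω B ↔ ψ y ∈ Cen q (id : B → B) := by
  let ψ0 : (Linf B ⧸ nullIdeal ω B) →ₐ[ℂ] E :=
    Ideal.Quotient.liftₐ (nullIdeal ω B) q.toAlgHom fun x hx => (U1.zero_iff hq x).2 hx
  let ψ : Ult ω B →⋆ₐ[ℂ] E :=
    { (ψ0 : Ult ω B →ₐ[ℂ] E) with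
      map_star' := by
        rintro ⟨x⟩
        exact map_star q x }
  have hψ : ∀ x, ψ (mk ω B x) = q x := fun _ => rfl
  have hi : Function.Injective ψ := by
    rw [injective_iff_map_eq_zero]
    rintro ⟨x⟩ hx
    exact Ideal.Quotient.eq_zero_iff_mem.2 ((U1.zero_iff hq x).1 hx)
  refine ⟨ψ, hi, hψ, fun y => ⟨fun hy => ?_, fun hy => ?_⟩⟩
  · rw [StarSubalgebra.mem_centralizer_iff]
    rintro _ ⟨a, rfl⟩
    have := (StarSubalgebra.mem_centralizer_iff ℂ).1 hy _ ⟨a, rfl⟩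
    refine ⟨?_, ?_⟩
    · have e := congrArg ψ this.1
      rwa [map_mul, map_mul] at e
    · have e := congrArg ψ this.2
      rwa [map_mul, map_mul, map_star] at e
  · refine (StarSubalgebra.mem_centralizer_iff ℂ).2 ?_
    rintro _ ⟨a, rfl⟩
    have := (StarSubalgebra.mem_centralizer_iff ℂ).1 hy _ ⟨a, rfl⟩
    refine ⟨hi ?_, hi ?_⟩
    · rw [map_mul, map_mul]
      exact this.1
    · rw [map_mul, map_mul, map_star]
      exact this.2

theorem mainN2 (hω : (ω : Filter ℕ) ≤ cofinite) [SeparableSpace A] [SeparableSpace Z]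
    (hs : SelfCen Z) (hn : IsEmpty (Z →⋆ₐ[ℂ] ℂ))
    (ι : A →⋆ₙₐ[ℂ] W) (j : Z →⋆ₐ[ℂ] W) (κ : T →⋆ₙₐ[ℂ] W)
    (hκ : Function.Injective κ) (hc : ∀ a d, Commute (ι a) (j d))
    (hT : Set.range κ = closure (Submodule.span ℂ {w | ∃ a d, w = ι a * j d} : Set W))
    (hid : ∀ w t, ∃ t', κ t * w = κ t') (hst : Nonempty (A ≃⋆ₐ[ℂ] T)) [Countable G]
    (hG : ∀ (F : Type) [CStarAlgebra F] (σ : G →* (F ≃⋆ₐ[ℂ] F)), CpG σ → Cp F →
      IsEmpty (F →⋆ₐ[ℂ] ℂ) → Gam σ ⊤)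
    (α : G →* (A ≃⋆ₐ[ℂ] A)) (γ : G →* Aut (Unitization ℂ A))
    (hγ : ∀ g (a : A), γ g a = (α g a : A)) (n : ℕ) (n0 : 0 < n) (K : Finset G) (ε : ℝ)
    (hε : 0 < ε) :
    ∃ (y : Fin n → Linf (Unitization ℂ A)) (e : Fin n → Central ω (Unitization ℂ A))
      (f : G → Fin n → Central ω (Unitization ℂ A)),
      (∀ i m, IsSelfAdjoint (y i m) ∧ spectrum ℝ (y i m) ⊆ Set.Icc 0 1) ∧
      (∀ i, (e i).1 = mk ω _ (y i)) ∧ (∀ g i, (f g i).1 = mk ω _ (act (γ g) (y i))) ∧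
      (∀ i k, i ≠ k → Ann ω A (e i * e k)) ∧ ∀ ρ, TrF ω A ρ → ∀ i,
        ‖ρ (e i) - 1 / n‖ ≤ ε ∧ ∀ g ∈ K, ‖ρ ((f g i - e i) ^ 2)‖ ≤ ε := by
  obtain ⟨φ⟩ := hst
  have : SeparableSpace (Unitization ℂ A) :=
    (Unitization.uniformEquivProd (𝕜 := ℂ) (A := A)).symm.surjective.denseRange.separableSpace
      (Unitization.uniformEquivProd (𝕜 := ℂ) (A := A)).symm.continuous
  obtain ⟨E, _, _, q, hq⟩ := exists_ult (A := Unitization ℂ A) ω
  obtain ⟨Q, _, π, hπ⟩ := exists_pres (Cen q (id : Unitization ℂ A → Unitization ℂ A))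
    (fun a : A => q (cst _ (a : Unitization ℂ A))) fun x hx a => mem_cen.1 hx _
  have hπ' : Pres _ (fun a : Set.range (Unitization.inr : A → Unitization ℂ A) => q (cst _ a)) π :=
    ⟨hπ.surj, fun x => (hπ.ker x).trans ⟨fun h => by rintro ⟨_, a, rfl⟩; exact h a,
      fun h a => h ⟨_, a, rfl⟩⟩, hπ.nrm⟩
  obtain ⟨σ, hσ⟩ := actQ hq γ (by rintro g _ ⟨a, rfl⟩; exact ⟨_, (hγ g a).symm⟩) hπ'
  obtain ⟨c1, c2⟩ := cpg_of_one (σ := σ) fun D _ _ β i hi S hS => oneQ hω hq γ hπ hσ hi S hS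
  have le : Fix q (id : Unitization ℂ A → Unitization ℂ A) (fun k : Empty => k.elim) ≤
      Cen q (id : Unitization ℂ A → Unitization ℂ A) := fun x hx => (mem_fix.1 hx).1
  have c3 : IsEmpty (Q →⋆ₐ[ℂ] ℂ) := cen_nocharN hω hq hs hn ι j κ hκ hc hT hid φ
    (π0 := π.comp (StarSubalgebra.inclusion le)) ⟨fun z => by
      obtain ⟨x, rfl⟩ := hπ.surj z
      exact ⟨⟨x.1, mem_fix.2 ⟨x.2, fun k => k.elim⟩⟩, rfl⟩, fun x => hπ.ker _, fun x δ hδ => by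
      obtain ⟨m, m1, m2⟩ := hπ.nrm (StarSubalgebra.inclusion le x) δ hδ
      exact ⟨⟨m.1, mem_fix.2 ⟨m.2, fun k => k.elim⟩⟩, m1, m2⟩⟩
  have n1 : (1 : ℝ) ≤ n := by exact_mod_cast n0
  have d0 : 0 < ε / n := by positivity
  obtain ⟨D, _, _, β, i, e, h1, h2, h3, h4⟩ :=
    hG Q σ c1 c2 c3 n n0 K (fun _ _ => Subgroup.mem_top _) _ d0
  obtain ⟨ψ, p1, p2, p3⟩ := psi hq
  let P : Central ω (Unitization ℂ A) →⋆ₐ[ℂ] Q := π.comp
    ((ψ.comp (Central ω (Unitization ℂ A)).subtype).codRestrict _ fun y => (p3 y.1).1 y.2)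
  have P0 : ∀ x, P x = 0 ↔ Ann ω A x := fun x => (hπ.ker _).trans (forall_congr' fun a => by
    rw [← p2, ← map_eq_zero_iff ψ p1, map_mul]
    rfl)
  have Ps : Function.Surjective P := fun z => by
    obtain ⟨⟨x, hx⟩, rfl⟩ := hπ.surj z
    obtain ⟨x, rfl⟩ := hq.surj x
    exact ⟨⟨mk ω _ x, (p3 _).2 (by rwa [p2])⟩, congrArg π (Subtype.ext (p2 x))⟩
  choose z hz hz' using fun k => FIN.lift_ctr π hπ.surj ((h2 k).map i)
  choose y hy hy' using fun k => FIN.lift_ctr q hq.surj ((hz' k).map (StarSubalgebra.subtype _))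
  have m1 : ∀ k, q (y k) ∈ Cen q (id : Unitization ℂ A → Unitization ℂ A) := fun k => by
    rw [hy]; exact (z k).2
  let e' : Fin n → Central ω (Unitization ℂ A) := fun k =>
    ⟨mk ω _ (y k), (p3 _).2 (by rw [p2]; exact m1 k)⟩
  let f : G → Fin n → Central ω (Unitization ℂ A) := fun g k =>
    ⟨mk ω _ (act (γ g) (y k)), (p3 _).2 (by rw [p2]; exact (hσ g _ (m1 k)).1)⟩
  have e0 : ∀ k, π ⟨_, m1 k⟩ = i (e k) := fun k => (congrArg π (Subtype.ext (hy k))).trans (hz k)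
  have e1 : ∀ k, P (e' k) = i (e k) := fun k => (congrArg π (Subtype.ext (p2 _))).trans (e0 k)
  have e2 : ∀ g k, P (f g k) = i (β g (e k)) := fun g k => by
    rw [h1, ← e0, (hσ g _ (m1 k)).2]
    exact congrArg π (Subtype.ext (p2 _))
  refine ⟨y, e', f, fun k m => (hy' k).map (FIN.ev m), fun _ => rfl, fun _ _ => rfl,
    fun k l hkl => (P0 _).1 (by rw [map_mul, e1, e1, ← map_mul, h3 k l hkl, map_zero]),
    fun ρ hρ k => ?_⟩
  obtain ⟨s, hs'⟩ := P.toAlgHom.toLinearMap.exists_rightInverse_of_surjective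
    (LinearMap.range_eq_top.2 Ps)
  have r1 : ∀ x, (ρ ∘ₗ s) (P x) = ρ x := fun x => by
    rw [← sub_eq_zero, LinearMap.comp_apply, ← map_sub]
    refine hρ.ann _ ((P0 _).1 ?_)
    rw [map_sub, sub_eq_zero]
    exact LinearMap.congr_fun hs' (P x)
  have r2 : Tr (ρ ∘ₗ s) := ⟨by rw [← map_one P, r1, hρ.one], fun x => by
    obtain ⟨x, rfl⟩ := Ps x
    rw [← map_star, ← map_mul, r1]
    exact hρ.pos x, fun x w => by
    obtain ⟨x, rfl⟩ := Ps x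
    obtain ⟨w, rfl⟩ := Ps w
    rw [← map_mul, ← map_mul, r1, r1, hρ.comm]⟩
  have r3 := r2.comp i
  refine ⟨?_, fun g hg => ?_⟩
  · have := FIN.near n0 h2 h3 r3 d0.le (fun l => (h4 _ r3 l).1) k
    rw [mul_div_cancel₀ _ (by positivity)] at this
    rw [← r1, e1]
    exact this
  · have c4 : IsSelfAdjoint (β g (e k) - e k) := ((h2 k).1.map (β g)).sub (h2 k).1
    have c5 := r3.pos (β g (e k) - e k)
    rw [c4.star_eq, ← sq] at c5
    rw [← r1, map_pow, map_sub, e1, e2, ← map_sub, ← map_pow]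
    have := Complex.norm_le_abs_re_add_abs_im ((ρ ∘ₗ s) (i ((β g (e k) - e k) ^ 2)))
    have c7 : ((ρ ∘ₗ s) (i ((β g (e k) - e k) ^ 2))).im = 0 := c5.2
    have c8 : 0 ≤ ((ρ ∘ₗ s) (i ((β g (e k) - e k) ^ 2))).re := c5.1
    have c9 : ((ρ ∘ₗ s) (i ((β g (e k) - e k) ^ 2))).re ≤ ε / n := (h4 _ r3 k).2 g hg
    rw [c7, abs_zero, abs_of_nonneg c8] at this
    have := div_le_self hε.le n1
    linarith

end Vale.Agent.P095H
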