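import Vale.Agent.P095H.PartN2
import Vale.Agent.P095G.WorkN

/-! Equivariant property Gamma for algebras without unit, with invariance in norm. -/

namespace Vale.Agent.P095H

open Filter Topology Finset Vale.Agent.P101 Vale.Agent.P095 Vale.Agent.P095G TopologicalSpace U2

variable {W Z : Type} [CStarAlgebra W] [CStarAlgebra Z]
  {A T : Type} [NonUnitalCStarAlgebra A] [NonUnitalCStarAlgebra T]
  {G : Type} [Group G] {ω : Ultrafilter ℕ}

lemma unit_act (α : G →* (A ≃⋆ₐ[ℂ] A)) : ∃ γ : G →* Aut (Unitization ℂ A),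
    ∀ g x, γ g x = Unitization.starMap (α g : A →⋆ₙₐ[ℂ] A) x := by
  let s : G → Unitization ℂ A →⋆ₐ[ℂ] Unitization ℂ A := fun g =>
    Unitization.starMap (α g : A →⋆ₙₐ[ℂ] A)
  have es : ∀ g (a : A), s g a = (α g a : A) := fun g a => Unitization.starMap_inr _ _
  have h1 : ∀ x, s 1 x = x := fun x => by
    induction x using Unitization.ind with
    | inl_add_inr r a => rw [map_add, es, Unitization.starMap_inl]; simp; rfl
  have hm : ∀ g h x, s (g * h) x = s g (s h x) := fun g h x => by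
    induction x using Unitization.ind with
    | inl_add_inr r a =>
      rw [map_add, map_add, map_add, es, es, es, Unitization.starMap_inl,
        Unitization.starMap_inl, AlgHomClass.commutes]
      simp
  have hi : ∀ g h, g * h = 1 → ∀ z, s g (s h z) = z := fun g h e z => by rw [← hm, e, h1]
  exact ⟨MonoidHom.mk' (fun g => StarAlgEquiv.ofStarAlgHom (s g) (s g⁻¹)
    (StarAlgHom.ext (hi _ _ (inv_mul_cancel g))) (StarAlgHom.ext (hi _ _ (mul_inv_cancel g))))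
    fun g h => StarAlgEquiv.ext fun z => hm g h z, fun _ _ => rfl⟩

theorem mainN3 (hω : (ω : Filter ℕ) ≤ cofinite) [SeparableSpace A] [SeparableSpace Z]
    (hs : SelfCen Z) (hn : IsEmpty (Z →⋆ₐ[ℂ] ℂ))
    (ι : A →⋆ₙₐ[ℂ] W) (j : Z →⋆ₐ[ℂ] W) (κ : T →⋆ₙₐ[ℂ] W)
    (hκ : Function.Injective κ) (hc : ∀ a d, Commute (ι a) (j d))
    (hT : Set.range κ = closure (Submodule.span ℂ {w | ∃ a d, w = ι a * j d} : Set W))
    (hid : ∀ w t, ∃ t', κ t * w = κ t') (hst : Nonempty (A ≃⋆ₐ[ℂ] T)) [Countable G]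
    (hG : ∀ (F : Type) [CStarAlgebra F] (σ : G →* (F ≃⋆ₐ[ℂ] F)), CpG σ → Cp F →
      IsEmpty (F →⋆ₐ[ℂ] ℂ) → GamN σ)
    (α : G →* (A ≃⋆ₐ[ℂ] A)) (n : ℕ) (n0 : 0 < n) (K : Finset G) (ε : ℝ) (hε : 0 < ε) :
    ∃ (y : Fin n → Linf (Unitization ℂ A)) (e : Fin n → Central ω (Unitization ℂ A)),
      (∀ i m, IsSelfAdjoint (y i m) ∧ spectrum ℝ (y i m) ⊆ Set.Icc 0 1) ∧
      (∀ i, (e i).1 = mk ω _ (y i)) ∧ (∀ i k, i ≠ k → Ann ω A (e i * e k)) ∧
      (∀ i, ∀ g ∈ K, ∀ a : A, ‖a‖ ≤ 1 → ∀ᶠ m in (ω : Filter ℕ),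
        ‖(Unitization.starMap (α g : A →⋆ₙₐ[ℂ] A) (y i m) - y i m) * a‖ < ε) ∧
      ∀ ρ, TrF ω A ρ → ∀ i, ‖ρ (e i) - 1 / n‖ ≤ ε := by
  obtain ⟨φ⟩ := hst
  obtain ⟨γ, hγ'⟩ := unit_act α
  have hγ : ∀ g (a : A), γ g a = (α g a : A) := fun g a =>
    (hγ' g a).trans (Unitization.starMap_inr _ _)
  have : SeparableSpace (Unitization ℂ A) :=
    (Unitization.uniformEquivProd (𝕜 := ℂ) (A := A)).symm.surjective.denseRange.separableSpace
      (Unitization.uniformEquivProd (𝕜 := ℂ) (A := A)).symm.continuous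
  obtain ⟨E, _, _, q, hq⟩ := exists_ult (A := Unitization ℂ A) ω
  obtain ⟨Q, _, π, hπ⟩ := exists_pres (Cen q (id : Unitization ℂ A → Unitization ℂ A))
    (fun a : A => q (cst _ (a : Unitization ℂ A))) fun x hx a => mem_cen.1 hx _
  have hπ' : Pres _ (fun a : Set.range (Unitization.inr : A → Unitization ℂ A) => q (cst _ a)) π :=
    ⟨hπ.surj, fun x => (hπ.ker x).trans ⟨fun h => by rintro ⟨_, a, rfl⟩; exact h a,
      fun h a => h ⟨_, a, rfl⟩⟩, hπ.nrm⟩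
  obtain ⟨σ, hσ⟩ := actQ hq γ (by rintro g _ ⟨a, rfl⟩; exact ⟨_, (hγ g a).symm⟩) hπ'
  obtain ⟨c1, c2⟩ := cpg_of_one (σ := σ) fun D _ _ β i hi S hS => oneQ hω hq γ hπ hσ hi S hS
  have le : Fix q (id : Unitization ℂ A → Unitization ℂ A) (fun k : Empty => k.elim) ≤
      Cen q (id : Unitization ℂ A → Unitization ℂ A) := fun x hx => (mem_fix.1 hx).1
  have c3 : IsEmpty (Q →⋆ₐ[ℂ] ℂ) := cen_nocharN hω hq hs hn ι j κ hκ hc hT hid φ
    (π0 := π.comp (StarSubalgebra.inclusion le)) ⟨fun z => by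
      obtain ⟨x, rfl⟩ := hπ.surj z
      exact ⟨⟨x.1, mem_fix.2 ⟨x.2, fun k => k.elim⟩⟩, rfl⟩, fun x => hπ.ker _, fun x δ hδ => by
      obtain ⟨m, m1, m2⟩ := hπ.nrm (StarSubalgebra.inclusion le x) δ hδ
      exact ⟨⟨m.1, mem_fix.2 ⟨m.2, fun k => k.elim⟩⟩, m1, m2⟩⟩
  have n1 : (1 : ℝ) ≤ n := by exact_mod_cast n0
  have d0 : 0 < ε / 2 / n := by positivity
  obtain ⟨D, _, _, β, i, e, h1, h2, h3, h5, h4⟩ := hG Q σ c1 c2 c3 n n0 K _ d0
  obtain ⟨ψ, p1, p2, p3⟩ := psi hq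
  let P : Central ω (Unitization ℂ A) →⋆ₐ[ℂ] Q := π.comp
    ((ψ.comp (Central ω (Unitization ℂ A)).subtype).codRestrict _ fun y => (p3 y.1).1 y.2)
  have P0 : ∀ x, P x = 0 ↔ Ann ω A x := fun x => (hπ.ker _).trans (forall_congr' fun a => by
    rw [← p2, ← map_eq_zero_iff ψ p1, map_mul]
    rfl)
  have Ps : Function.Surjective P := fun z => by
    obtain ⟨⟨x, hx⟩, rfl⟩ := hπ.surj z
    obtain ⟨x, rfl⟩ := hq.surj x
    exact ⟨⟨mk ω _ x, (p3 _).2 (by rwa [p2])⟩, congrArg π (Subtype.ext (p2 x))⟩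
  choose z hz hz' using fun k => FIN.lift_ctr π hπ.surj ((h2 k).map i)
  choose y hy hy' using fun k => FIN.lift_ctr q hq.surj ((hz' k).map (StarSubalgebra.subtype _))
  have m1 : ∀ k, q (y k) ∈ Cen q (id : Unitization ℂ A → Unitization ℂ A) := fun k => by
    rw [hy]; exact (z k).2
  let e' : Fin n → Central ω (Unitization ℂ A) := fun k =>
    ⟨mk ω _ (y k), (p3 _).2 (by rw [p2]; exact m1 k)⟩
  have e0 : ∀ k, π ⟨_, m1 k⟩ = i (e k) := fun k => (congrArg π (Subtype.ext (hy k))).trans (hz k)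
  have e1 : ∀ k, P (e' k) = i (e k) := fun k => (congrArg π (Subtype.ext (p2 _))).trans (e0 k)
  refine ⟨y, e', fun k m => (hy' k).map (FIN.ev m), fun _ => rfl,
    fun k l hkl => (P0 _).1 (by rw [map_mul, e1, e1, ← map_mul, h3 k l hkl, map_zero]),
    fun k g hg a ha => ?_, fun ρ hρ k => ?_⟩
  · obtain ⟨m2, m3⟩ := hσ g _ (m1 k)
    have b1 := hπ.norm_mul (⟨_, m2⟩ - ⟨_, m1 k⟩) a
    rw [map_sub, ← m3, e0, ← h1, ← map_sub] at b1
    have b2 : ‖i (β g (e k) - e k)‖ ≤ ε / 2 :=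
      ((NonUnitalStarAlgHom.norm_apply_le i _).trans (h5 k g hg)).trans
        (div_le_self (by positivity) n1)
    have b3 : ‖q (cst _ (a : Unitization ℂ A))‖ ≤ 1 :=
      (NonUnitalStarAlgHom.norm_apply_le (q.comp (Z2.cstH _)) (a : Unitization ℂ A)).trans
        (by rwa [Unitization.norm_inr])
    have b4 : ‖q ((Z2.mapL (γ g : Unitization ℂ A →⋆ₐ[ℂ] Unitization ℂ A) (y k) - y k) *
        cst _ (a : Unitization ℂ A))‖ < ε := by
      rw [map_mul, map_sub]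
      refine b1.trans_lt ((mul_le_mul b2 b3 (norm_nonneg _) (by positivity)).trans_lt ?_)
      linarith
    refine (hq.ev2 b4).mono fun m hm => ?_
    rw [← hγ']
    exact hm
  obtain ⟨s, hs'⟩ := P.toAlgHom.toLinearMap.exists_rightInverse_of_surjective
    (LinearMap.range_eq_top.2 Ps)
  have r1 : ∀ x, (ρ ∘ₗ s) (P x) = ρ x := fun x => by
    rw [← sub_eq_zero, LinearMap.comp_apply, ← map_sub]
    refine hρ.ann _ ((P0 _).1 ?_)
    rw [map_sub, sub_eq_zero]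
    exact LinearMap.congr_fun hs' (P x)
  have r2 : Tr (ρ ∘ₗ s) := ⟨by rw [← map_one P, r1, hρ.one], fun x => by
    obtain ⟨x, rfl⟩ := Ps x
    rw [← map_star, ← map_mul, r1]
    exact hρ.pos x, fun x w => by
    obtain ⟨x, rfl⟩ := Ps x
    obtain ⟨w, rfl⟩ := Ps w
    rw [← map_mul, ← map_mul, r1, r1, hρ.comm]⟩
  have r3 := r2.comp i
  have := FIN.near n0 h2 h3 r3 d0.le (fun l => h4 _ r3 l) k
  rw [mul_div_cancel₀ _ (by positivity)] at this
  rw [← r1, e1]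
  exact le_trans this (half_le_self hε.le)

end Vale.Agent.P095H
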