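import Vale.Agent.P095H.PartN3
import Vale.Agent.P095H.DefsN2

/-! Transfer to sequences. -/

namespace Vale.Agent.P095H

open Filter Topology Vale.Agent.P101

variable {ω : Ultrafilter ℕ} {B : Type} [CStarAlgebra B] [Nontrivial B]
  {A : Type} [NonUnitalCStarAlgebra A]

lemma cseq {x : Linf B} (h : mk ω B x ∈ Central ω B) : CSeq ω x := fun b => by
  have h1 := ((StarSubalgebra.mem_centralizer_iff ℂ).1 h _ ⟨b, rfl⟩).1
  have h2 : x * cst B b - cst B b * x ∈ nullIdeal ω B := Ideal.Quotient.eq.1 h1.symm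
  exact h2

lemma aseq {x : Linf (Unitization ℂ A)}
    (h : ∀ a : A, mk ω _ x * mk ω _ (cst _ (a : Unitization ℂ A)) = 0) :
    ASeq ω (Set.range (Unitization.inr : A → Unitization ℂ A)) x := by
  rintro _ ⟨a, rfl⟩
  have h2 : x * cst _ (a : Unitization ℂ A) ∈ nullIdeal ω (Unitization ℂ A) :=
    Ideal.Quotient.eq_zero_iff_mem.1 (h a)
  exact h2

lemma trs {ρ : Linf (Unitization ℂ A) →ₗ[ℂ] ℂ}
    (h : TrS ω (Set.range (Unitization.inr : A → Unitization ℂ A)) ρ) :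
    ∃ ρ', TrF ω A ρ' ∧ ∀ (x : Central ω (Unitization ℂ A)) y, x.1 = mk ω _ y → ρ' x = ρ y := by
  let L : Linf (Unitization ℂ A) →ₐ[ℂ] Ult ω (Unitization ℂ A) :=
    Ideal.Quotient.mkₐ ℂ (nullIdeal ω (Unitization ℂ A))
  obtain ⟨s, hs⟩ := L.toLinearMap.exists_rightInverse_of_surjective
    (LinearMap.range_eq_top.2 (Ideal.Quotient.mkₐ_surjective ℂ _))
  have e : ∀ x, mk ω _ (s x) = x := fun x => LinearMap.congr_fun hs x
  let ρ' : Central ω (Unitization ℂ A) →ₗ[ℂ] ℂ :=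
    ρ ∘ₗ s ∘ₗ (Central ω (Unitization ℂ A)).subtype.toAlgHom.toLinearMap
  have k : ∀ (x : Central ω (Unitization ℂ A)) y, x.1 = mk ω _ y → ρ' x = ρ y := fun x y hy => by
    have z : mk ω _ (s x.1 - y) = 0 := (map_sub L _ _).trans (sub_eq_zero.2 ((e _).trans hy))
    rw [← sub_eq_zero]
    exact (map_sub ρ _ _).symm.trans (h.ann (s x.1 - y) (cseq (by rw [z]; exact zero_mem _))
      (aseq fun a => by rw [z, zero_mul]))
  have c : ∀ x : Central ω (Unitization ℂ A), CSeq ω (s x.1) := fun x =>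
    cseq (by rw [e]; exact x.2)
  have m : ∀ x y : Central ω (Unitization ℂ A), (x * y).1 = mk ω _ (s x.1 * s y.1) := fun x y =>
    (congrArg₂ (· * ·) (e x.1) (e y.1)).symm.trans (map_mul L _ _).symm
  refine ⟨ρ', ⟨(k 1 1 (map_one L).symm).trans h.one, fun x => ?_, fun x y => ?_, fun x hx => ?_⟩, k⟩
  · rw [k (star x * x) (star (s x.1) * s x.1) (by
      change star x.1 * x.1 = _
      conv_lhs => rw [← e x.1]
      rfl)]
    exact h.pos _ (c x)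
  · rw [k _ _ (m x y), k _ _ (m y x)]
    exact h.comm _ _ (c x) (c y)
  · exact h.ann (s x.1) (c x) (aseq fun a => by rw [e]; exact hx a)

theorem gammaF {G : Type} [Group G] (α : G →* (A ≃⋆ₐ[ℂ] A)) {n : ℕ} {K : Finset G} {ε : ℝ}
    (h : ∃ (y : Fin n → Linf (Unitization ℂ A)) (e : Fin n → Central ω (Unitization ℂ A)),
      (∀ i m, IsSelfAdjoint (y i m) ∧ spectrum ℝ (y i m) ⊆ Set.Icc 0 1) ∧
      (∀ i, (e i).1 = mk ω _ (y i)) ∧ (∀ i k, i ≠ k → Ann ω A (e i * e k)) ∧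
      (∀ i, ∀ g ∈ K, ∀ a : A, ‖a‖ ≤ 1 → ∀ᶠ m in (ω : Filter ℕ),
        ‖(Unitization.starMap (α g : A →⋆ₙₐ[ℂ] A) (y i m) - y i m) * a‖ < ε) ∧
      ∀ ρ, TrF ω A ρ → ∀ i, ‖ρ (e i) - 1 / n‖ ≤ ε) :
    GammaF ω (Set.range (Unitization.inr : A → Unitization ℂ A)) (fun g => uext (α g)) n K ε := by
  obtain ⟨y, e, h1, h2, h3, h4, h5⟩ := h
  refine ⟨y, fun i k hik => aseq fun a => ?_, fun i => ⟨h1 i, cseq (h2 i ▸ (e i).2),
    fun g hg => ?_, fun ρ hρ => ?_⟩⟩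
  · have := h3 i k hik a
    change (e i).1 * (e k).1 * _ = 0 at this
    rw [h2, h2] at this
    exact this
  · rintro _ ⟨a, rfl⟩ ha
    exact h4 i g hg a (by rwa [Unitization.norm_inr] at ha)
  · obtain ⟨ρ', r1, r2⟩ := trs hρ
    rw [← r2 _ _ (h2 i)]
    exact h5 ρ' r1 i

end Vale.Agent.P095H
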