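import Vale.Agent.P095.NCP
import Vale.Agent.P095.NAP
import Vale.Agent.P095.NIG
import Vale.Agent.P101.Glue

/-! The character criterion for algebras without unit. -/

namespace Vale.Agent.P095H

open Filter Topology Finset Vale.Agent.P101 Vale.Agent.P095 TopologicalSpace

variable {E W Z : Type} [CStarAlgebra E] [CStarAlgebra W] [CStarAlgebra Z]
  {A T : Type} [NonUnitalCStarAlgebra A] [NonUnitalCStarAlgebra T] {ω : Ultrafilter ℕ}

theorem charN (hω : (ω : Filter ℕ) ≤ cofinite) [Nontrivial A] [SeparableSpace A]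
    [SeparableSpace Z] (hZ : DropLimit Z) (hf : HalfFlipZero Z)
    (ι : A →⋆ₙₐ[ℂ] W) (j : Z →⋆ₐ[ℂ] W) (κ : T →⋆ₙₐ[ℂ] W) (hι : Function.Injective ι)
    (hκ : Function.Injective κ) (hc : ∀ a d, Commute (ι a) (j d))
    (hT : Set.range κ = closure (Submodule.span ℂ {w | ∃ a d, w = ι a * j d} : Set W))
    (hid : ∀ w t, ∃ t', κ t * w = κ t') {G : Type} [Group G] [Countable G]
    (α : G →* (A ≃⋆ₐ[ℂ] A)) (β : G →* (W ≃⋆ₐ[ℂ] W)) (h1 : ∀ g a, β g (ι a) = ι (α g a))
    (h2 : ∀ g d, β g (j d) = j d) {q : Linf (Unitization ℂ A) →⋆ₐ[ℂ] E} (hq : IsUlt ω q)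
    {Φ : G → E →⋆ₐ[ℂ] E} (hΦ : Ind q (fun g => Unitization.starMap (α g : A →⋆ₙₐ[ℂ] A)) Φ)
    (no : ∀ χ : Fix q (id : Unitization ℂ A → Unitization ℂ A) Φ →⋆ₐ[ℂ] ℂ,
      ¬ ∀ x, (∀ a : A, x.1 * q (cst _ (a : Unitization ℂ A)) = 0) → χ x = 0) :
    ∃ (Φ : A ≃⋆ₐ[ℂ] T) (u : G → W), (∀ g, u g ∈ unitary W) ∧ (∀ g h, u (g * h) = u g * β g (u h)) ∧
      ∀ g a, κ (Φ (α g a)) = u g * β g (κ (Φ a)) * star (u g) := by
  have : SeparableSpace (Unitization ℂ A) :=
    (Unitization.uniformEquivProd (𝕜 := ℂ) (A := A)).symm.surjective.denseRange.separableSpace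
      (Unitization.uniformEquivProd (𝕜 := ℂ) (A := A)).symm.continuous
  have cm : ∀ {K : Type} (σ : K → E →⋆ₐ[ℂ] E), ∀ x ∈ Fix q id σ, ∀ a : A,
      Commute x (q (cst _ (a : Unitization ℂ A))) := fun σ x hx a =>
    U2.mem_cen.1 (mem_fix.1 hx).1 _
  refine intertwineN ι j κ hι hκ hc hT hid α β h1 fun V X Y ε hε => ?_
  let s : V → Unitization ℂ A →⋆ₐ[ℂ] Unitization ℂ A := fun g =>
    Unitization.starMap (α g : A →⋆ₙₐ[ℂ] A)
  have es : ∀ g (a : A), s g a = (α g a : A) := fun g a => Unitization.starMap_inr _ _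
  obtain ⟨ι', el⟩ : ∃ ι' : Unitization ℂ A →⋆ₐ[ℂ] W, ∀ a : A, ι' a = ι a :=
    ⟨Unitization.starLift ι, fun a => DFunLike.congr_fun (Unitization.starLift.symm_apply_apply ι) a⟩
  have er : ∀ r : ℂ, ι' (Unitization.inl r) = algebraMap ℂ W r := fun r => AlgHomClass.commutes ι' r
  let σ : V → E →⋆ₐ[ℂ] E := fun g => Φ g
  have hσ : Ind q s σ := fun g x => hΦ g x
  have le : Fix q (id : Unitization ℂ A → Unitization ℂ A) Φ ≤ Fix q id σ := fun x hx =>
    mem_fix.2 ⟨(mem_fix.1 hx).1, fun g => (mem_fix.1 hx).2 g⟩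
  obtain ⟨Q, _, π, hπ⟩ := exists_pres _ _ (cm σ)
  obtain ⟨a0, ha0⟩ := exists_ne (0 : A)
  obtain ⟨z, hz, a1, a2, a3⟩ := approxN hω hq hZ hf hσ hπ (drop (cpone_quot hω hq hσ hπ).cp
    ⟨fun χ => no (χ.comp (π.comp (StarSubalgebra.inclusion le))) fun x hx =>
      (congrArg χ ((hπ.ker (StarSubalgebra.inclusion le x)).2 hx)).trans (map_zero χ)⟩) ι' j
    ⟨a0, by rw [el]; exact fun h => ha0 (hι (h.trans (map_zero ι).symm))⟩
    (fun b d => by
      induction b using Unitization.ind with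
      | inl_add_inr r a =>
        rw [map_add, el, er]
        exact Commute.add_left (Algebra.commutes r _) (hc a d))
    (fun g : V => (β g : W →⋆ₐ[ℂ] W))
    (fun g b => by
      induction b using Unitization.ind with
      | inl_add_inr r a =>
        rw [map_add, map_add, map_add, map_add, es, el, el, Unitization.starMap_inl,
          AlgHomClass.commutes, er, AlgHomClass.commutes]
        exact congrArg _ (h1 g a))
    (fun g d => h2 g d) X Y ε hε
  refine ⟨z, hz, fun g hg => a1 ⟨g, hg⟩, fun a ha => ?_,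
    fun d hd a ha => ?_⟩
  · simpa only [el] using a2 a ha
  · obtain ⟨b, hb⟩ := a3 d hd
    refine ⟨b.fst • a + b.snd * a, ?_⟩
    have e : ι' b * ι a = ι (b.fst • a + b.snd * a) := by
      induction b using Unitization.ind with
      | inl_add_inr r b => simp [add_mul, Algebra.smul_def, el, er]
    have := hb a ha
    rwa [el, sub_mul, e] at this

end Vale.Agent.P095H
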