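import Vale.Agent.P095H.DefsN3
import Vale.Agent.P095H.PartN1
import Vale.Agent.P095G.PartSI2

/-! From the quotient to the unitization. -/

namespace Vale.Agent.P095H

open Filter Topology Finset Vale.Agent.P101 Vale.Agent.P095 Vale.Agent.P095G TopologicalSpace
open U2 SI

variable {B D E F : Type} [CStarAlgebra B] [CStarAlgebra D] [CStarAlgebra E] [CStarAlgebra F]
  {G : Type} [Group G] {ω : Ultrafilter ℕ}

lemma lift_con (q : D →⋆ₐ[ℂ] E) (hq : Function.Surjective q) {e : E} (he : ‖e‖ ≤ 1) :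
    ∃ y, q y = e ∧ ‖y‖ ≤ 1 := by
  obtain ⟨x, hx⟩ := hq e
  have h1 : IsSelfAdjoint (star x * x) := IsSelfAdjoint.star_mul_self x
  have hf : Continuous fun t : ℝ => (Real.sqrt (max 1 t))⁻¹ :=
    (Real.continuous_sqrt.comp (continuous_const.max continuous_id)).inv₀ fun t =>
      (Real.sqrt_pos.2 (lt_of_lt_of_le one_pos (le_max_left _ _))).ne'
  refine ⟨x * cfc (fun t : ℝ => (Real.sqrt (max 1 t))⁻¹) (star x * x), ?_, ?_⟩
  · rw [map_mul, StarAlgHom.map_cfc q _ _ hf.continuousOn (hom_cont q) h1 (h1.map q), map_mul,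
      map_star, hx, cfc_congr (g := fun _ : ℝ => 1) (fun t ht => by
        simp [max_eq_left ((ctr_of he).2 ht).2]),
      cfc_const_one ℝ _ (IsSelfAdjoint.star_mul_self e), mul_one]
  · have h2 : IsSelfAdjoint (cfc (fun t : ℝ => (Real.sqrt (max 1 t))⁻¹) (star x * x)) :=
      cfc_predicate _ _
    have h3 : cfc (fun t : ℝ => (Real.sqrt (max 1 t))⁻¹ * (t * (Real.sqrt (max 1 t))⁻¹))
        (star x * x) = star (x * cfc (fun t : ℝ => (Real.sqrt (max 1 t))⁻¹) (star x * x)) *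
          (x * cfc (fun t : ℝ => (Real.sqrt (max 1 t))⁻¹) (star x * x)) := by
      rw [cfc_mul (fun t : ℝ => (Real.sqrt (max 1 t))⁻¹) (fun t : ℝ => t * (Real.sqrt (max 1 t))⁻¹)
          _ hf.continuousOn (continuous_id.mul hf).continuousOn,
        cfc_mul (fun t : ℝ => t) (fun t : ℝ => (Real.sqrt (max 1 t))⁻¹) _ continuousOn_id
          hf.continuousOn, cfc_id' ℝ _ h1, star_mul x, h2.star_eq]
      simp only [mul_assoc]
    have h4 := norm_cfc_le (a := star x * x) (f := fun t : ℝ =>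
      (Real.sqrt (max 1 t))⁻¹ * (t * (Real.sqrt (max 1 t))⁻¹)) zero_le_one fun t ht => by
      have m0 : (0 : ℝ) < max 1 t := lt_of_lt_of_le one_pos (le_max_left _ _)
      have t0 : 0 ≤ t := by
        let _ := CStarAlgebra.spectralOrder D
        have _ := CStarAlgebra.spectralOrderedRing D
        exact spectrum_nonneg_of_nonneg (star_mul_self_nonneg x) ht
      rw [mul_left_comm, ← mul_inv, Real.mul_self_sqrt m0.le, Real.norm_eq_abs,
        abs_of_nonneg (by positivity), mul_inv_le_iff₀ m0, one_mul]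
      exact le_max_right _ _
    rw [h3, CStarRing.norm_star_mul_self] at h4
    nlinarith [norm_nonneg (x * cfc (fun t : ℝ => (Real.sqrt (max 1 t))⁻¹) (star x * x))]

lemma cen_iff [Nontrivial B] {q : Linf B →⋆ₐ[ℂ] E} (hq : IsUlt ω q) (x : Linf B) :
    q x ∈ Cen q (id : B → B) ↔ CSeq ω x :=
  mem_cen.trans (forall_congr' fun b => by
    rw [Commute, SemiconjBy, ← map_mul, ← map_mul]
    exact U1.eq_iff hq _ _)

lemma ann_iff [Nontrivial B] {q : Linf B →⋆ₐ[ℂ] E} (hq : IsUlt ω q) (J : Set B) (x : Linf B) :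
    (∀ a : J, q x * q (cst B a) = 0) ↔ ASeq ω J x :=
  Subtype.forall.trans (forall₂_congr fun a _ => by
    rw [← map_mul]
    exact U1.zero_iff hq _)

lemma desc [Nontrivial B] {q : Linf B →⋆ₐ[ℂ] E} (hq : IsUlt ω q) {J : Set B}
    {π : Cen q (id : B → B) →⋆ₐ[ℂ] F} (hπ : Pres _ (fun a : J => q (cst B a)) π)
    {ρ : Linf B →ₗ[ℂ] ℂ} (h : TrS ω J ρ) :
    ∃ T : F →ₗ[ℂ] ℂ, Tr T ∧ ∀ x hx, T (π ⟨q x, hx⟩) = ρ x := by
  let H := (Cen q (id : B → B)).comap q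
  let P : H →⋆ₐ[ℂ] F := π.comp ((q.comp H.subtype).codRestrict _ fun y => y.2)
  have Ps : Function.Surjective P := fun z => by
    obtain ⟨⟨x, hx⟩, rfl⟩ := hπ.surj z
    obtain ⟨x, rfl⟩ := hq.surj x
    exact ⟨⟨x, hx⟩, rfl⟩
  have c : ∀ x : H, CSeq ω x.1 := fun x => (cen_iff hq _).1 x.2
  obtain ⟨s, hs⟩ := P.toAlgHom.toLinearMap.exists_rightInverse_of_surjective
    (LinearMap.range_eq_top.2 Ps)
  let T : F →ₗ[ℂ] ℂ := ρ ∘ₗ H.subtype.toAlgHom.toLinearMap ∘ₗ s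
  have r1 : ∀ x : H, T (P x) = ρ x.1 := fun x => by
    have e : P (s (P x) - x) = 0 := by
      rw [map_sub, sub_eq_zero]
      exact LinearMap.congr_fun hs (P x)
    rw [← sub_eq_zero]
    exact (map_sub ρ _ _).symm.trans (h.ann (s (P x) - x).1 (c _)
      ((ann_iff hq J _).1 ((hπ.ker _).1 e)))
  refine ⟨T, ⟨by rw [← map_one P, r1]; exact h.one, fun x => ?_, fun x w => ?_⟩,
    fun x hx => r1 ⟨x, hx⟩⟩
  · obtain ⟨x, rfl⟩ := Ps x
    rw [← map_star, ← map_mul, r1]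
    exact h.pos x.1 (c x)
  · obtain ⟨x, rfl⟩ := Ps x
    obtain ⟨w, rfl⟩ := Ps w
    rw [← map_mul, ← map_mul, r1, r1]
    exact h.comm _ _ (c x) (c w)

lemma lim_fun [Nontrivial B] (τ : ℕ → B →ₗ[ℂ] ℂ) (hτ : ∀ m x, ‖τ m x‖ ≤ ‖x‖) :
    ∃ ρ : Linf B →ₗ[ℂ] ℂ, ∀ x : Linf B, Tendsto (fun m => τ m (x m)) ω (𝓝 (ρ x)) := by
  have h1 : ∀ x : Linf B, ∃ l, Tendsto (fun m => τ m (x m)) ω (𝓝 l) := fun x => by
    obtain ⟨l, -, hl⟩ := (isCompact_closedBall (0 : ℂ) ‖x‖).ultrafilter_le_nhds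
      (ω.map fun m => τ m (x m))
      (le_principal_iff.2 (mem_map.2 (Eventually.of_forall fun m =>
        mem_closedBall_zero_iff.2 ((hτ m _).trans (U1.le x m)))))
    exact ⟨l, hl⟩
  choose L hL using h1
  exact ⟨{ toFun := L
           map_add' := fun a b => tendsto_nhds_unique (hL _) (((hL a).add (hL b)).congr fun m =>
             (map_add (τ m) (a m) (b m)).symm)
           map_smul' := fun c a => tendsto_nhds_unique (hL _) (((hL a).const_smul c).congr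
             fun m => (map_smul (τ m) c (a m)).symm) }, hL⟩

lemma avg_inv (hG : Vale.Agent.P184.IsAmenable G) (β : G →* (D ≃⋆ₐ[ℂ] D)) (K : Finset G) {ε : ℝ}
    (hε : 0 < ε) : ∃ (L : ℕ) (k : Fin L → G), 0 < L ∧ ∀ v : D, ‖v‖ ≤ 1 →
      ‖(L : ℝ)⁻¹ • ∑ l, β (k l) v‖ ≤ 1 ∧
        ∀ g ∈ K, ‖β g ((L : ℝ)⁻¹ • ∑ l, β (k l) v) - (L : ℝ)⁻¹ • ∑ l, β (k l) v‖ ≤ ε := by
  obtain ⟨L, k, hL, hk⟩ := folner hG K (ε / 2) (half_pos hε)
  have L0 : (0 : ℝ) < L := Nat.cast_pos.2 hL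
  refine ⟨L, k, hL, fun v h2 => ⟨?_, fun g hg => ?_⟩⟩
  · have nm : ∀ g : G, ‖β g v‖ = ‖v‖ := fun g => StarAlgEquiv.norm_map (β g) v
    rw [norm_smul, Real.norm_eq_abs, abs_of_pos (inv_pos.2 L0), inv_mul_le_iff₀ L0]
    refine (norm_sum_le _ _).trans ?_
    simp only [nm, Finset.sum_const, card_univ, Fintype.card_fin, nsmul_eq_mul]
    exact mul_le_mul_of_nonneg_left h2 L0.le
  · obtain ⟨J, φ, a1, a2, a3⟩ := hk g hg
    have := NORM.shift β v k g J φ a1 a2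
    rw [← Complex.coe_smul, map_smul, ← smul_sub, norm_smul, Complex.norm_real, Real.norm_eq_abs,
      abs_of_pos (inv_pos.2 L0), inv_mul_le_iff₀ L0]
    have a4 : 0 ≤ (L : ℝ) - J.card := by
      have : J.card ≤ L := by simpa using J.card_le_univ
      exact sub_nonneg.2 (Nat.cast_le.2 this)
    nlinarith [mul_le_mul_of_nonneg_left h2 a4]

end Vale.Agent.P095H
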