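import Vale.Agent.P095H.PartN6

/-! Almost invariant matrix units in the unitization. -/

namespace Vale.Agent.P095H

open Filter Topology Finset Vale.Agent.P101 Vale.Agent.P095 Vale.Agent.P095G TopologicalSpace
open U2 SI CI

variable {B D E F : Type} [CStarAlgebra B] [CStarAlgebra D] [CStarAlgebra E] [CStarAlgebra F]
  {G : Type} [Group G] {ω : Ultrafilter ℕ}

/-- The estimates at one stage. -/
def St (τ : B →ₗ[ℂ] ℂ) (v : B) (ε : ℝ) (M : ℕ) : Prop :=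
  Q τ (v * v) < ε ∧ Q τ ((3 : ℂ)⁻¹ • (1 - star v * v - v * star v)) < ε ∧
    ∀ m ∈ range M, 1 / 5 < (τ ((star v * v) ^ m)).re ∧ 1 / 5 < (τ ((1 - star v * v) ^ m)).re

theorem mcB [Nontrivial B] {q : Linf B →⋆ₐ[ℂ] E} (hq : IsUlt ω q) (γ : G →* (B ≃⋆ₐ[ℂ] B))
    {J : Set B} {π : Cen q (id : B → B) →⋆ₐ[ℂ] F} (hπ : Pres _ (fun a : J => q (cst B a)) π)
    {σ : G →* (F ≃⋆ₐ[ℂ] F)} (hσ : ∀ g x (hx : q x ∈ Cen q (id : B → B)),
      ∃ hx' : q (Z2.mapL (γ g : B →⋆ₐ[ℂ] B) x) ∈ Cen q (id : B → B),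
        σ g (π ⟨q x, hx⟩) = π ⟨_, hx'⟩)
    (hG : Vale.Agent.P184.IsAmenable G) (h : McD σ) {S : Set (B →ₗ[ℂ] ℂ)} (hS : LimTr ω J S)
    (X : Finset B) (K : Finset G) (ε : ℝ) (hε : 0 < ε) (M : ℕ) :
    ∃ v : B, ‖v‖ ≤ 1 ∧ (∀ a ∈ X, ‖v * a - a * v‖ < ε) ∧ (∀ g ∈ K, ‖γ g v - v‖ < ε) ∧
      ∀ τ ∈ S, St τ v ε M := by
  classical
  obtain ⟨s, hs⟩ := CPG.act hq γ
  have e1 : ∀ g z, π (s g z) = σ g (π z) := fun g z => by
    obtain ⟨z, hz⟩ := z
    obtain ⟨x, rfl⟩ := hq.surj z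
    rw [(hσ g x hz).2]
    exact congrArg π (Subtype.ext (hs g x hz))
  obtain ⟨L, k, hL, hk⟩ := avg_inv hG s K (half_pos hε)
  have L0 : (0 : ℝ) < L := Nat.cast_pos.2 hL
  obtain ⟨η, η0, η1⟩ : ∃ η : ℝ, 0 < η ∧ (2 * M + 1) * η ≤ 1 / 4 :=
    ⟨1 / (4 * (2 * M + 1)), by positivity, le_of_eq (by field_simp)⟩
  obtain ⟨δ, d0, d1, d2, d3⟩ : ∃ δ : ℝ, 0 < δ ∧ δ ≤ 1 ∧ 34 * δ < ε ∧ 34 * δ ≤ η ^ 2 := by
    refine ⟨min 1 (min (ε / 35) (η ^ 2 / 34)), by positivity, min_le_left _ _, ?_, ?_⟩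
    · have := (min_le_right 1 (min (ε / 35) (η ^ 2 / 34))).trans (min_le_left _ _)
      linarith
    · have := (min_le_right 1 (min (ε / 35) (η ^ 2 / 34))).trans (min_le_right _ _)
      linarith
  obtain ⟨D, _, β, ι, v, h1, h2, h3, h4⟩ := mcN hG h (univ.image k) δ d0
  have v1 : ‖ι v‖ ≤ 1 := (NonUnitalStarAlgHom.norm_apply_le ι v).trans h2
  obtain ⟨x0, a1, a2⟩ := lift_con π hπ.surj v1
  obtain ⟨b1, b2⟩ := hk x0 a2
  set x1 := (L : ℝ)⁻¹ • ∑ l, s (k l) x0 with hx1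
  have w1 : ‖π x1‖ ≤ 1 := (NonUnitalStarAlgHom.norm_apply_le π x1).trans b1
  have w2 : ‖ι v - π x1‖ ≤ δ := by
    have e : ι v - π x1 = -(L : ℝ)⁻¹ • ∑ l, ι (β (k l) v - v) := by
      rw [hx1, ← Complex.coe_smul, map_smul, map_sum, Complex.coe_smul]
      simp only [e1, a1, map_sub, h1 _ _]
      rw [Finset.sum_sub_distrib, Finset.sum_const, card_univ,
        Fintype.card_fin, smul_sub, ← Nat.cast_smul_eq_nsmul ℝ, smul_smul, neg_mul,
        inv_mul_cancel₀ L0.ne', neg_smul, neg_smul, one_smul]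
      abel
    rw [e, norm_smul, norm_neg, Real.norm_eq_abs, abs_of_pos (inv_pos.2 L0), inv_mul_le_iff₀ L0]
    refine (norm_sum_le _ _).trans ((Finset.sum_le_card_nsmul _ _ δ fun l _ =>
      (NonUnitalStarAlgHom.norm_apply_le ι _).trans
        (h3 _ (mem_image_of_mem k (mem_univ l)))).trans ?_)
    simp
  have tr : ∀ T : F →ₗ[ℂ] ℂ, Tr T → St T (π x1) ε M := fun T hT => by
    obtain ⟨c1, c2⟩ := pert hT v1 w1
    obtain ⟨c3, c4⟩ := h4 _ (hT.comp ι)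
    have c5 : Q T (ι v * ι v) ≤ δ := by
      simpa only [Q, LinearMap.comp_apply, AlgHom.toLinearMap_apply, StarAlgHom.coe_toAlgHom,
        map_mul, map_star] using c3
    have c6 : Q T (1 - star (ι v) * ι v - ι v * star (ι v)) ≤ δ := by
      have e : 1 - star (ι v) * ι v - ι v * star (ι v) = ι (1 - star v * v - v * star v) := by
        simp only [map_sub, map_mul, map_star, map_one]
      rw [e, Q, ← map_star, ← map_mul]
      exact c4
    have c7 : Q T (ι v - π x1) ≤ δ := (Q_le hT _).trans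
      ((pow_le_pow_left₀ (norm_nonneg _) w2 2).trans (by nlinarith))
    refine ⟨by linarith, ?_, fun m hm => ?_⟩
    · rw [← one_mul (1 - star (π x1) * π x1 - π x1 * star (π x1)), ← smul_mul_assoc]
      refine (Q_l hT ?_ _).trans_lt (by linarith)
      rw [norm_smul]
      exact mul_le_one₀ (by norm_num) (norm_nonneg _) (EXPx.norm_le_one (one_mem _))
    · have m1 : (m : ℝ) ≤ M := Nat.cast_le.2 (mem_range.1 hm).le
      obtain ⟨c8, c9⟩ := large hT w1 m η0.le (by nlinarith) (by linarith) (by linarith)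
      constructor <;> linarith
  obtain ⟨y, hy, y1⟩ := lift_con q hq.surj (e := x1.1) b1
  have my : q y ∈ Cen q (id : B → B) := by rw [hy]; exact x1.2
  have my' : (⟨q y, my⟩ : Cen q (id : B → B)) = x1 := Subtype.ext hy
  have a2 : ∀ᶠ m in (ω : Filter ℕ), ∀ a ∈ X, ‖y m * a - a * y m‖ < ε :=
    (eventually_all_finset X).2 fun a _ => ((cen_iff hq y).1 my a).eventually (gt_mem_nhds hε)
  have a4 : ∀ᶠ m in (ω : Filter ℕ), ∀ g ∈ K, ‖γ g (y m) - y m‖ < ε :=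
    (eventually_all_finset K).2 fun g hg => by
      have c3 : ‖q (Z2.mapL (γ g : B →⋆ₐ[ℂ] B) y - y)‖ < ε := by
        rw [map_sub, ← hs g y my, my', hy]
        exact lt_of_le_of_lt (b2 g hg) (half_lt_self hε)
      exact hq.ev2 c3
  have a3 : ∀ᶠ m in (ω : Filter ℕ), ∀ τ ∈ S, St τ (y m) ε M := by
    by_contra hb
    rw [← Ultrafilter.eventually_not] at hb
    obtain ⟨m0, hm0⟩ := hb.exists
    obtain ⟨τ0, hτ0⟩ := not_forall.1 hm0
    have t0 : τ0 ∈ S := (Classical.not_imp.1 hτ0).1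
    have ch : ∀ m, ∃ τ ∈ S, (¬ ∀ τ ∈ S, St τ (y m) ε M) → ¬ St τ (y m) ε M := fun m => by
      by_cases hm : ∀ τ ∈ S, St τ (y m) ε M
      · exact ⟨τ0, t0, fun h => absurd hm h⟩
      · obtain ⟨τ, hτ⟩ := not_forall.1 hm
        exact ⟨τ, (Classical.not_imp.1 hτ).1, fun _ => (Classical.not_imp.1 hτ).2⟩
    choose τ hτ hτ' using ch
    obtain ⟨ρ, hρ⟩ := lim_fun (ω := ω) τ fun m => hS.1 _ (hτ m)
    obtain ⟨T, hT, hT'⟩ := desc hq hπ (hS.2 τ hτ ρ hρ)
    let H := (Cen q (id : B → B)).comap q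
    let P : H →⋆ₐ[ℂ] F := π.comp ((q.comp H.subtype).codRestrict _ fun y => y.2)
    let ev : ℕ → H →⋆ₐ[ℂ] B := fun n => (FIN.ev n).comp H.subtype
    have key : ∀ z : H, Tendsto (fun n => (τ n (ev n z)).re) ω (𝓝 (T (P z)).re) := fun z => by
      have e : T (P z) = ρ z.1 := hT' z.1 z.2
      rw [e]
      exact (Complex.continuous_re.tendsto _).comp (hρ z.1)
    let Y : H := ⟨y, my⟩
    have e2 : P Y = π x1 := congrArg π my'
    have e3 : ∀ n, ev n Y = y n := fun _ => rfl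
    obtain ⟨c1, c2, c3⟩ := tr T hT
    have k1 := key (star (Y * Y) * (Y * Y))
    have k2 := key (star ((3 : ℂ)⁻¹ • (1 - star Y * Y - Y * star Y)) *
      ((3 : ℂ)⁻¹ • (1 - star Y * Y - Y * star Y)))
    simp only [map_mul (ev _), map_star (ev _), map_sub (ev _), map_one (ev _), map_smul (ev _),
      map_mul P, map_star P, map_sub P, map_one P, map_smul P, e2, e3] at k1 k2
    have k3 : ∀ᶠ n in (ω : Filter ℕ), ∀ m ∈ range M, 1 / 5 < (τ n ((star (y n) * y n) ^ m)).re ∧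
        1 / 5 < (τ n ((1 - star (y n) * y n) ^ m)).re :=
      (eventually_all_finset _).2 fun m hm => by
        have k4 := key ((star Y * Y) ^ m)
        have k5 := key ((1 - star Y * Y) ^ m)
        simp only [map_mul (ev _), map_star (ev _), map_sub (ev _), map_one (ev _), map_pow (ev _),
          map_mul P, map_star P, map_sub P, map_one P, map_pow P, e2, e3] at k4 k5
        exact (k4.eventually (lt_mem_nhds (c3 m hm).1)).and (k5.eventually (lt_mem_nhds (c3 m hm).2))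
    obtain ⟨m, b3, b4, b5, b6⟩ := (hb.and ((k1.eventually (gt_mem_nhds c1)).and
      ((k2.eventually (gt_mem_nhds c2)).and k3))).exists
    exact hτ' m b3 ⟨b4, b5, b6⟩
  obtain ⟨m, b2, b4, b3⟩ := (a2.and (a4.and a3)).exists
  exact ⟨y m, (U1.le y m).trans y1, b2, b4, b3⟩

end Vale.Agent.P095H
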