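import Vale.Agent.P095H.PartN7

/-! Property (SI) excludes characters modulo the annihilator. -/

namespace Vale.Agent.P095H

open Filter Topology Finset Vale.Agent.P101 Vale.Agent.P095 Vale.Agent.P095G TopologicalSpace
open U2 SI CI

variable {B E : Type} [CStarAlgebra B] [CStarAlgebra E] {G : Type} [Group G] {ω : Ultrafilter ℕ}

theorem nocharN (hω : (ω : Filter ℕ) ≤ cofinite) [Nontrivial B] [SeparableSpace B] [Countable G]
    {q : Linf B →⋆ₐ[ℂ] E} (hq : IsUlt ω q) {γ : G → B →⋆ₐ[ℂ] B} {Φ : G → E →⋆ₐ[ℂ] E}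
    (hΦ : Ind q γ Φ) {J : Set B} {S : Set (B →ₗ[ℂ] ℂ)} (hS : EqSIF ω J S fun g => γ g)
    (h : ∀ (X : Finset B) (K : Finset G) (ε : ℝ), 0 < ε → ∀ M : ℕ,
      ∃ v : B, ‖v‖ ≤ 1 ∧ (∀ a ∈ X, ‖v * a - a * v‖ < ε) ∧ (∀ g ∈ K, ‖γ g v - v‖ < ε) ∧
      ∀ τ ∈ S, St τ v ε M) (χ : Fix q (id : B → B) Φ →⋆ₐ[ℂ] ℂ) :
    ¬ ∀ x, (∀ a : J, x.1 * q (cst B a) = 0) → χ x = 0 := by
  classical
  intro hχ
  have mem_iff : ∀ x, q x ∈ Fix q (id : B → B) Φ ↔ CInvF ω (fun g => γ g) x := fun x =>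
    mem_fix.trans (and_congr (cen_iff hq x) (forall_congr' fun g => by
      rw [hΦ]
      exact U1.eq_iff hq _ _))
  obtain ⟨k, hk⟩ := exists_surjective_nat G
  choose v v1 v2 v3 v4 using fun n : ℕ => h ((range (n + 1)).image (denseSeq B))
    ((range (n + 1)).image k) (1 / ((n : ℝ) + 1)) Nat.one_div_pos_of_nat (n + 1)
  have hω' : (ω : Filter ℕ) ≤ atTop := Nat.cofinite_eq_atTop ▸ hω
  have t0 : Tendsto (fun n : ℕ => 1 / ((n : ℝ) + 1)) ω (𝓝 0) :=
    (tendsto_one_div_add_atTop_nhds_zero_nat (𝕜 := ℝ)).mono_left hω'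
  have ev : ∀ ε : ℝ, 0 < ε → ∀ᶠ n : ℕ in (ω : Filter ℕ), 1 / ((n : ℝ) + 1) < ε := fun ε hε =>
    t0.eventually (gt_mem_nhds hε)
  let y : Linf B := U1.bd v 1 v1
  have hy : CInvF ω (fun g => γ g) y := by
    refine ⟨fun a => Metric.tendsto_nhds.2 fun ε hε => ?_, fun g => ?_⟩
    · obtain ⟨i, hi⟩ := (denseRange_denseSeq B).exists_dist_lt a (show 0 < ε / 3 by positivity)
      rw [dist_eq_norm] at hi
      filter_upwards [ev (ε / 3) (by positivity), hω' (eventually_ge_atTop i)] with n h1 h2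
      have h3 := v2 n _ (mem_image_of_mem _ (mem_range.2 (Nat.lt_succ_of_le h2)))
      rw [dist_zero_right, norm_norm]
      show ‖v n * a - a * v n‖ < ε
      have e : v n * a - a * v n = (v n * denseSeq B i - denseSeq B i * v n) +
          (v n * (a - denseSeq B i) - (a - denseSeq B i) * v n) := by noncomm_ring
      have h4 := norm_mul_le (v n) (a - denseSeq B i)
      have h5 := norm_mul_le (a - denseSeq B i) (v n)
      have h6 := norm_sub_le (v n * (a - denseSeq B i)) ((a - denseSeq B i) * v n)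
      have h7 := mul_le_mul_of_nonneg_right (v1 n) (norm_nonneg (a - denseSeq B i))
      rw [e]
      refine (norm_add_le _ _).trans_lt ?_
      linarith
    · obtain ⟨i, rfl⟩ := hk g
      refine squeeze_zero' (Eventually.of_forall fun _ => norm_nonneg _) ?_ t0
      filter_upwards [hω' (eventually_ge_atTop i)] with n h2
      exact (v3 n _ (mem_image_of_mem _ (mem_range.2 (Nat.lt_succ_of_le h2)))).le
  let V : Fix q (id : B → B) Φ := ⟨q y, (mem_iff y).2 hy⟩
  have lg : ∀ m : ℕ, ∀ᶠ n in (ω : Filter ℕ), ∀ τ ∈ S,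
      1 / 5 ≤ (τ ((star (v n) * v n) ^ m)).re ∧ 1 / 5 ≤ (τ ((1 - star (v n) * v n) ^ m)).re := by
    intro m
    filter_upwards [hω' (eventually_ge_atTop m)] with n hn τ hτ
    exact ((v4 n τ hτ).2.2 m (mem_range.2 (Nat.lt_succ_of_le hn))).imp le_of_lt le_of_lt
  have use : ∀ (e f : Linf B) (e' f' : Fix q (id : B → B) Φ), q e = e' → q f = f' →
      (∀ n, Ctr (e n)) → (∀ n, Ctr (f n)) →
      (∀ ε : ℝ, 0 < ε → ∀ᶠ n in (ω : Filter ℕ), ∀ τ ∈ S, (τ (e n)).re ≤ ε) →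
      (∀ m : ℕ, ∀ᶠ n in (ω : Filter ℕ), ∀ τ ∈ S, 1 / 5 ≤ (τ (f n ^ m)).re) →
      χ e' ≠ 0 → χ f' = 1 := by
    intro e f e' f' he hf c1 c2 c3 c4 h0
    obtain ⟨s, s1, s2, s3⟩ := hS e f ((mem_iff e).1 (he ▸ e'.2)) ((mem_iff f).1 (hf ▸ f'.2))
      c1 c2 c3 ⟨1 / 5, by norm_num, c4⟩
    let S' : Fix q (id : B → B) Φ := ⟨q s, (mem_iff s).2 s1⟩
    have d1 := hχ (star S' * S' - e') fun a => by
      have := (ann_iff hq J _).2 s2 a
      rwa [map_sub, map_mul, map_star, he] at this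
    have d2 := hχ (f' * S' - S') fun a => by
      have := (ann_iff hq J _).2 s3 a
      rwa [map_sub, map_mul, hf] at this
    rw [map_sub, sub_eq_zero, map_mul] at d1 d2
    have d3 : χ S' ≠ 0 := fun d => h0 (by rw [← d1, d, mul_zero])
    exact mul_right_cancel₀ d3 (by rw [d2, one_mul])
  have kill : ∀ (z : Linf B) (z' : Fix q (id : B → B) Φ), q z = z' → (∀ n, ‖z n‖ ≤ 1) →
      (∀ n, ∀ τ ∈ S, Q τ (z n) < 1 / ((n : ℝ) + 1)) → χ z' = 0 := by
    intro z z' hz z1 z2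
    by_contra h0
    have h1 : χ (star z' * z') ≠ 0 := by
      rw [map_mul, map_star]
      exact mul_ne_zero (star_ne_zero.2 h0) h0
    have he : q (star z * z) = (star z' * z' : Fix q (id : B → B) Φ) := by
      rw [map_mul, map_star, hz]
      rfl
    have nu : ∀ ε : ℝ, 0 < ε → ∀ᶠ n in (ω : Filter ℕ), ∀ τ ∈ S,
        (τ ((star z * z) n)).re ≤ ε := fun ε hε =>
      (ev ε hε).mono fun n hn τ hτ => ((z2 n τ hτ).trans hn).le
    have a1 := use (star z * z) (star y * y) _ (star V * V) he (by rw [map_mul, map_star]; rfl)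
      (fun n => ctr_of (z1 n))
      (fun n => ctr_of (v1 n)) nu (fun m => (lg m).mono fun n hn τ hτ => (hn τ hτ).1) h1
    have a2 := use (star z * z) (1 - star y * y) _ (1 - star V * V) he
      (by rw [map_sub, map_one, map_mul, map_star]; rfl) (fun n => ctr_of (z1 n))
      (fun n => ctr_sub (ctr_of (v1 n))) nu (fun m => (lg m).mono fun n hn τ hτ => (hn τ hτ).2) h1
    rw [map_sub, map_one, a1, sub_self] at a2
    exact zero_ne_one a2
  have k1 := kill (y * y) (V * V) (map_mul q _ _) (fun n => (norm_mul_le (v n) (v n)).trans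
    (mul_le_one₀ (v1 n) (norm_nonneg _) (v1 n))) fun n τ hτ => (v4 n τ hτ).1
  have k2 := kill ((3 : ℂ)⁻¹ • (1 - star y * y - y * star y))
    ((3 : ℂ)⁻¹ • (1 - star V * V - V * star V))
    (by rw [map_smul, map_sub, map_sub, map_one, map_mul, map_mul, map_star]; rfl) (fun n => by
      show ‖(3 : ℂ)⁻¹ • (1 - star (v n) * v n - v n * star (v n))‖ ≤ 1
      have b1 := norm_sub_le (1 - star (v n) * v n) (v n * star (v n))
      have b2 := norm_sub_le 1 (star (v n) * v n)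
      rw [CStarRing.norm_self_mul_star] at b1
      rw [CStarRing.norm_star_mul_self, norm_one] at b2
      rw [norm_smul]
      have b3 : ‖(3 : ℂ)⁻¹‖ = 1 / 3 := by simp
      rw [b3]
      nlinarith [v1 n, norm_nonneg (v n)]) fun n τ hτ => (v4 n τ hτ).2.1
  rw [map_mul, mul_self_eq_zero] at k1
  rw [map_smul, map_sub, map_sub, map_mul, map_mul, k1, map_one] at k2
  simp at k2

end Vale.Agent.P095H
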