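import Vale.Agent.P095H.PartN8
import Vale.Agent.P095H.PartN5
import Vale.Agent.P095H.PartN3

/-! Equivariant stability from property (SI), without unit. -/

namespace Vale.Agent.P095H

open Filter Topology Finset Vale.Agent.P101 Vale.Agent.P095 Vale.Agent.P095G TopologicalSpace U2

variable {W Z : Type} [CStarAlgebra W] [CStarAlgebra Z]
  {A T : Type} [NonUnitalCStarAlgebra A] [NonUnitalCStarAlgebra T] {ω : Ultrafilter ℕ}

theorem mainSI (hω : (ω : Filter ℕ) ≤ cofinite) [Nontrivial A] [SeparableSpace A]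
    [SeparableSpace Z] (hZ : DropLimit Z) (hf : HalfFlipZero Z) (hs : SelfCen Z)
    (hn : IsEmpty (Z →⋆ₐ[ℂ] ℂ))
    (ι : A →⋆ₙₐ[ℂ] W) (j : Z →⋆ₐ[ℂ] W) (κ : T →⋆ₙₐ[ℂ] W) (hι : Function.Injective ι)
    (hκ : Function.Injective κ) (hc : ∀ a d, Commute (ι a) (j d))
    (hT : Set.range κ = closure (Submodule.span ℂ {w | ∃ a d, w = ι a * j d} : Set W))
    (hid : ∀ w t, ∃ t', κ t * w = κ t') (hst : Nonempty (A ≃⋆ₐ[ℂ] T))
    {G : Type} [Group G] [Countable G] (hG : Vale.Agent.P184.IsAmenable G)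
    (hM : ∀ (F : Type) [CStarAlgebra F] (σ : G →* (F ≃⋆ₐ[ℂ] F)), CpG σ → Cp F →
      IsEmpty (F →⋆ₐ[ℂ] ℂ) → McD σ)
    (α : G →* (A ≃⋆ₐ[ℂ] A)) (β : G →* (W ≃⋆ₐ[ℂ] W)) (h1 : ∀ g a, β g (ι a) = ι (α g a))
    (h2 : ∀ g d, β g (j d) = j d) {S : Set (Unitization ℂ A →ₗ[ℂ] ℂ)}
    (hS : LimTr ω (Set.range (Unitization.inr : A → Unitization ℂ A)) S)
    (hI : EqSIF ω (Set.range (Unitization.inr : A → Unitization ℂ A)) S fun g => uext (α g)) :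
    ∃ (Φ : A ≃⋆ₐ[ℂ] T) (u : G → W), (∀ g, u g ∈ unitary W) ∧ (∀ g h, u (g * h) = u g * β g (u h)) ∧
      ∀ g a, κ (Φ (α g a)) = u g * β g (κ (Φ a)) * star (u g) := by
  obtain ⟨φ⟩ := hst
  obtain ⟨γ, hγ'⟩ := unit_act α
  have hγ : ∀ g (a : A), γ g a = (α g a : A) := fun g a =>
    (hγ' g a).trans (Unitization.starMap_inr _ _)
  have : SeparableSpace (Unitization ℂ A) :=
    (Unitization.uniformEquivProd (𝕜 := ℂ) (A := A)).symm.surjective.denseRange.separableSpace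
      (Unitization.uniformEquivProd (𝕜 := ℂ) (A := A)).symm.continuous
  obtain ⟨E, _, _, q, hq⟩ := exists_ult (A := Unitization ℂ A) ω
  obtain ⟨Q, _, π, hπ⟩ := exists_pres (Cen q (id : Unitization ℂ A → Unitization ℂ A))
    (fun a : A => q (cst _ (a : Unitization ℂ A))) fun x hx a => mem_cen.1 hx _
  have hπ' : Pres _ (fun a : Set.range (Unitization.inr : A → Unitization ℂ A) => q (cst _ a)) π :=
    ⟨hπ.surj, fun x => (hπ.ker x).trans ⟨fun h => by rintro ⟨_, a, rfl⟩; exact h a,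
      fun h a => h ⟨_, a, rfl⟩⟩, hπ.nrm⟩
  obtain ⟨σ, hσ⟩ := actQ hq γ (by rintro g _ ⟨a, rfl⟩; exact ⟨_, (hγ g a).symm⟩) hπ'
  obtain ⟨c1, c2⟩ := cpg_of_one (σ := σ) fun D _ _ β i hi S hS => oneQ hω hq γ hπ hσ hi S hS
  have le : Fix q (id : Unitization ℂ A → Unitization ℂ A) (fun k : Empty => k.elim) ≤
      Cen q (id : Unitization ℂ A → Unitization ℂ A) := fun x hx => (mem_fix.1 hx).1
  have c3 : IsEmpty (Q →⋆ₐ[ℂ] ℂ) := cen_nocharN hω hq hs hn ι j κ hκ hc hT hid φ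
    (π0 := π.comp (StarSubalgebra.inclusion le)) ⟨fun z => by
      obtain ⟨x, rfl⟩ := hπ.surj z
      exact ⟨⟨x.1, mem_fix.2 ⟨x.2, fun k => k.elim⟩⟩, rfl⟩, fun x => hπ.ker _, fun x δ hδ => by
      obtain ⟨m, m1, m2⟩ := hπ.nrm (StarSubalgebra.inclusion le x) δ hδ
      exact ⟨⟨m.1, mem_fix.2 ⟨m.2, fun k => k.elim⟩⟩, m1, m2⟩⟩
  obtain ⟨Φ, hΦ⟩ := exists_ind hq fun g : G => Unitization.starMap (α g : A →⋆ₙₐ[ℂ] A)
  refine charN hω hZ hf ι j κ hι hκ hc hT hid α β h1 h2 hq hΦ fun χ hχ =>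
    nocharN hω hq hΦ hI (fun X K ε hε M => ?_) χ fun x hx => hχ x fun a => hx ⟨_, a, rfl⟩
  simpa only [hγ'] using mcB hq γ hπ' hσ hG (hM Q σ c1 c2 c3) hS X K ε hε M

end Vale.Agent.P095H
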