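import Vale.Agent.P095H.Defs
import Vale.Agent.P101.PartZ2
import Vale.Agent.P101.PartU2

/-! Working definitions for P095. -/

namespace Vale.Agent.P095H

open Vale.Agent.P101

variable {A B E : Type} [CStarAlgebra A] [CStarAlgebra B] [CStarAlgebra E] {G : Type}

/-- Fixed points of a family of endomorphisms. -/
def Fix (σ : G → E →⋆ₐ[ℂ] E) : StarSubalgebra ℂ E where
  carrier := {x | ∀ g, σ g x = x}
  mul_mem' := fun {a b} ha hb g => by rw [map_mul, ha g, hb g]
  add_mem' := fun {a b} ha hb g => by rw [map_add, ha g, hb g]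
  algebraMap_mem' := fun c g => AlgHomClass.commutes (σ g) c
  star_mem' := fun {a} ha g => by rw [map_star, ha g]

instance (σ : G → E →⋆ₐ[ℂ] E) : IsClosed (Fix σ : Set E) := by
  have : (Fix σ : Set E) = ⋂ g, {x | σ g x = x} := Set.ext fun x => by
    rw [Set.mem_iInter]; rfl
  rw [this]
  exact isClosed_iInter fun g => isClosed_eq (U2.hom_cont (σ g)) continuous_id

/-- Invariant central sequences. -/
noncomputable def CF [Nontrivial B] (q : Linf B →⋆ₐ[ℂ] E) (ι : A → B) (σ : G → E →⋆ₐ[ℂ] E) :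
    StarSubalgebra ℂ E := Cen q ι ⊓ Fix σ

instance [Nontrivial B] (q : Linf B →⋆ₐ[ℂ] E) (ι : A → B) (σ : G → E →⋆ₐ[ℂ] E) :
    IsClosed (CF q ι σ : Set E) :=
  IsClosed.inter (inferInstanceAs (IsClosed (Cen q ι : Set E)))
    (inferInstanceAs (IsClosed (Fix σ : Set E)))

/-- An action by endomorphisms. -/
structure Act [Group G] (σ : G → E →⋆ₐ[ℂ] E) : Prop where
  one : ∀ x, σ 1 x = x
  mul : ∀ g h x, σ (g * h) x = σ g (σ h x)

end Vale.Agent.P095H
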